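import Vale.Agent.P146.H22.ParF
import Vale.Agent.P146.H346.GueP

set_option linter.all false

/-!
# P146, H22: the upper bound with a field at a level of the grid

`GueF` from Guerra's bound for the functional with two exponents, at the share `T = 0`.
-/

open MeasureTheory ProbabilityTheory Filter Topology Set

namespace Vale.Agent.P146.H22.Par

open Vale.Agent.P157.Par (Path Exponents spinPart spR cascade)
open Vale.Agent.P146.Gap
open Vale.Agent.P146.Pw2
open Vale.Agent.P146.H698.FO (PsiV)

/-- the share `T = 0` -/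
theorem PsiV_T0 (n : ℕ) (b V : ℝ) {x m : ℝ} (hm : 0 < m) :
    PsiV n b V x m 0 = H9.Phn n b x V := by
  unfold PsiV H9.Phn H877.LPhi
  rw [one_div, inv_mul_eq_div]
  congr 2
  refine integral_congr_ae (Eventually.of_forall fun z => ?_)
  refine integral_congr_ae (Eventually.of_forall fun g => ?_)
  simp only [sub_zero, Real.sqrt_one, one_smul, Real.sqrt_zero, zero_smul, add_zero,
    integral_const, probReal_univ, Real.log_exp]
  congr 1
  field_simp

theorem shift_casc {e K : ℕ} {r : ℕ → ℝ} (h0 : ∀ l < e + 1, r l = 0) :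
    cascade (gm (e + K)) r (e + K) lc =
      cascade (fun j => if j = 0 then 0 else gm (e + K) (e + j)) (fun j => r (e + j)) K lc := by
  rw [minb_split, minb_flat (fun l h1 h2 => (grid_gm_pos h1).ne')
    (fun l hl => by rw [h0 l (by omega), h0 0 (by omega)])]
  refine minb_congr (fun l h1 h2 => ?_) (fun l hl => rfl) lc
  have : l ≠ 0 := by omega
  simp [this]

theorem shift_exp (e K : ℕ) :
    Exponents K (fun j => if j = 0 then 0 else gm (e + K) (e + j)) := by
  refine ⟨by simp, ?_, fun l hl => ?_⟩
  · simp only [Nat.add_eq_zero_iff, one_ne_zero, and_false, if_false]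
    exact grid_gm_top (e + K)
  · simp only [Nat.add_eq_zero_iff, one_ne_zero, and_false, if_false]
    by_cases hl0 : l = 0
    · subst hl0
      simp only [if_true]
      exact grid_gm_pos (by omega)
    · simp only [hl0, if_false]
      exact (gm_exponents (e + K)).2.2 (e + l) (by omega)

theorem shift_sum {e K : ℕ} {q : ℕ → ℝ} (h0 : ∀ l < e + 1, q l = 0) :
    ∑ l ∈ Finset.range (K + 1), ((fun j => if j = 0 then 0 else gm (e + K) (e + j)) (l + 1) -
      (fun j => if j = 0 then 0 else gm (e + K) (e + j)) l) * q (e + l) ^ 2 =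
      ∑ l ∈ Finset.range (e + K + 1), (gm (e + K) (l + 1) - gm (e + K) l) * q l ^ 2 := by
  have h1 : e + K + 1 = e + (K + 1) := by ring
  rw [h1, Finset.sum_range_add _ e (K + 1)]
  have h2 : ∑ l ∈ Finset.range e, (gm (e + K) (l + 1) - gm (e + K) l) * q l ^ 2 = 0 := by
    refine Finset.sum_eq_zero fun l hl => ?_
    have := Finset.mem_range.1 hl
    rw [h0 l (by omega)]
    ring
  rw [h2, zero_add]
  refine Finset.sum_congr rfl fun l hl => ?_
  by_cases hl0 : l = 0
  · subst hl0
    have h3 : q (e + 0) = 0 := h0 e (by omega)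
    rw [h3]
    ring
  · simp only [Nat.add_eq_zero_iff, one_ne_zero, and_false, if_false, hl0]
    rfl

/-- **The upper bound with a field.** -/
theorem gueF {b : ℝ} : GueF b := by
  intro K d n hn hd hdK V hV q hq hq0
  obtain ⟨e, rfl⟩ : ∃ e, d = e + 1 := ⟨d - 1, by omega⟩
  obtain ⟨K, rfl⟩ : ∃ k, K = e + k := ⟨K - e, by omega⟩
  have hexp := shift_exp e K
  have hpath : Path K (fun j => q (e + j)) :=
    ⟨(hq0 e (by omega)).ge, fun l hl => hq.2 (e + l) (by omega)⟩
  have hx : 0 < gm (e + K) (e + 1) := grid_gm_pos (by omega)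
  have h1 := H346.psiV_le (N := n) (β := b) (T := 0) (V := V) (x := gm (e + K) (e + 1)) hn
    (show 2 ≤ 2 from le_rfl) (show 2 ≤ K by omega) hexp hpath (hq0 e (by omega)) le_rfl
    (by norm_num) hV hx (by simp)
  have hm2 : 0 < (fun j => if j = 0 then 0 else gm (e + K) (e + j)) 2 := by
    simp only [show (2 : ℕ) ≠ 0 by norm_num, if_false]
    exact grid_gm_pos (by omega)
  rw [PsiV_T0 n b V hm2, shift_sum (fun l hl => hq0 l hl)] at h1
  refine h1.trans (le_of_eq ?_)
  -- the spin part
  have hr0 : ∀ l < e + 1, (fun l => if l < e + 1 then 0 else b ^ 2 * q l + V) l = 0 := fun l hl => by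
    simp only [if_pos hl]
  have hcas := shift_casc (K := K) hr0
  have hs : spinPart K (fun j => if j = 0 then 0 else gm (e + K) (e + j))
      (fun l => if l = 0 then 0 else b ^ 2 * q (e + l) + V) =
      spinPart (e + K) (gm (e + K)) (fun l => if l < e + 1 then 0 else b ^ 2 * q l + V) := by
    have e1 : (fun j => (fun l => if l < e + 1 then 0 else b ^ 2 * q l + V) (e + j)) =
        fun l => if l = 0 then 0 else b ^ 2 * q (e + l) + V := by
      funext j
      by_cases hj : j = 0
      · subst hj
        simp
      · simp only [hj, if_false]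
        rw [if_neg (by omega)]
    rw [e1] at hcas
    rw [minb_spin (by simp), minb_spin (by simp), hcas]
    simp only [show K ≠ 0 by omega, if_false]
    rw [if_neg (by omega)]
  unfold Vq
  rw [hs]
  ring

end Vale.Agent.P146.H22.Par
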