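import Vale.Agent.P146.H22.ParH
import Vale.Agent.P146.H22.ParI
import Vale.Agent.P146.H420B.FldRate

set_option linter.all false

/-!
# P146: the start of the sharp flow, proved from the Parisi side

No upper bound of the entropy is used: the response of the Parisi functional with a field (H22.ParD),
the lower bound of the exponential moments with a field and a rate (H420B.FldRate), and Guerra's
bound with a field (H346.GueP).
-/

open MeasureTheory ProbabilityTheory Filter Topology Set

namespace Vale.Agent.P146.H22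

open Vale.Agent.P146.H22.Par
open Vale.Agent.P146.H178 (StartH)

theorem rateF {b : ℝ} (hb : 0 < b) : RateF b := by
  obtain ⟨C, -, h⟩ := Vale.Agent.P146.Ub.Ld.F4.rate_gm hb
  exact ⟨C, fun K d n hd hdK hn V hV hV1 Lb hLb => h K d V Lb hd hdK hV hV1 hLb n hn⟩

/-- **The start of the sharp flow**, for all small exponents. -/
theorem startH {b : ℝ} (hb : 1 < b) {b₁ d0 s d : ℝ} (hb₁ : 0 < b₁) (hd0 : 0 < d0) (hs : 0 < s)
    (hd : 0 < d) (h1 : 8 * b₁ < 1 / 18) (h2 : 5 * b₁ + d < 1 / 36) (h3 : 5 * b₁ + d0 < 1 / 36) :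
    StartH b b₁ d0 s d (fun n => H9.Phn n b) :=
  startH_of hb (rateF (by linarith)) gueF hb₁ hd0 hs hd h1 h2 h3

/-- **All the starts which the two stages need.** -/
theorem startH_q {b : ℝ} (hb : 1 < b) {b₁ : ℝ} (hb₁ : 0 < b₁) (h1 : b₁ < 1 / 180) :
    ∃ q0 : ℝ, 0 < q0 ∧ ∀ q, 0 < q → q ≤ q0 →
      StartH b b₁ (23 * q) (10 * q) (24 * q) (fun n => H9.Phn n b) :=
  startH_all hb (rateF (by linarith)) gueF hb₁ h1

end Vale.Agent.P146.H22
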