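import Mathlib
import Vale.Agent.P146.Bd3.B6

set_option linter.all false

/-!
# P146, H22: the Parisi side with a field, part A

The variation of the spin part when one level is moved inside a block, for every path (no
minimality). These are the computations of the base (FVar up and down), with the minimality
removed.
-/

open MeasureTheory ProbabilityTheory Filter Topology Set

namespace Vale.Agent.P146.H22.Par

open Vale.Agent.P157.Par
open Vale.Agent.P146.Gap
open Vale.Agent.P146.Pw2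
open Vale.Agent.P367.Cl
open Vale.Agent.P146.Lb

/-- the spin part when the level `l` is moved up inside the block `(l, l + 1)` -/
theorem spin_up (b : ℝ) : ∃ C : ℝ, 1 ≤ C ∧ ∀ (n : ℕ) (r : ℕ → ℝ) (l : ℕ),
    BPath b n r → 1 ≤ l → l < n → ∀ t ∈ Icc 0 (r (l + 1) - r l),
      spinPart n (gm n) (Function.update r l (r l + t)) ≤ spinPart n (gm n) r
        - 1 / 2 * (1 / ((n : ℝ) + 1)) *
          ((∫ s in (0 : ℝ)..t, Rb n (gm n) r l s) - C / (n + 1) * t ^ 2) := by
  obtain ⟨K, hK0, hK⟩ := tlt_exp_lip (b ^ 2)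
  refine ⟨1 + 2 * K, by linarith, ?_⟩
  intro n r l h hl1 hl t ht
  have hm := gm_exponents n
  have hpath := h.2.1
  have hg : 0 < gm n (l + 1) := gapn_exp_pos hm (by omega) (by omega)
  have hg1 : gm n (l + 1) ≤ 1 := gapn_exp_le_one hm (by omega)
  have hg' : 0 < gm n l := gapn_exp_pos hm hl1 (by omega)
  have hg'1 : gm n l ≤ 1 := gapn_exp_le_one hm (by omega)
  have hδ := gm_sub n l
  have ht0 : 0 ≤ t := ht.1
  have hrb := long_r_le h (show l + 1 ≤ n by omega)
  have hr0 := long_r_nonneg h hl.le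
  have htb : t ≤ b ^ 2 := by linarith only [ht.2, hr0, hrb]
  obtain ⟨C, hC⟩ := fl_good hm hpath (l := l + 1) (by omega)
  have hF := hC.adm
  rw [up_spin hm h hl1 hl ht, minb_spin h.1, fl_split (m := gm n) (r := r) hl.le]
  have eF1 : Fl n (gm n) r l = gstep (gm n (l + 1)) t (Gb n (gm n) r l t) := by
    have := up_Gb hm hpath hl ht0 ht.2
    rw [sub_zero] at this
    rw [this, up_Gb_zero n _ r hl]
  have hVt : 0 ≤ r (l + 1) - r l - t := by linarith only [ht.2]
  have hGt := hF.step hg hg1 hVt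
  have eGt : gstep (gm n (l + 1)) (r (l + 1) - r l - t) (Fl n (gm n) r (l + 1)) =
    Gb n (gm n) r l t := rfl
  rw [eGt] at hGt
  set g := gm n (l + 1) with hgd
  set g' := gm n l with hg'd
  set d : ℝ := 1 / ((n : ℝ) + 1) with hd
  have hd0 : 0 < d := by rw [hd]; positivity
  have hgg : g' ≤ g := by linarith only [hd0, hδ]
  set G1 := gstep g' t (Gb n (gm n) r l t) with hG1
  set F1 := Fl n (gm n) r l with hF1
  have aG1 := hGt.step hg' hg'1 ht0
  rw [← hG1] at aG1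
  have aF1 := hGt.step hg hg1 ht0
  rw [← eF1] at aF1
  have hE1 : Sp7Exp (gm n) l := fun i hi => ⟨long_gm_pos n i, long_gm_le (by omega)⟩
  have hη : ∀ x, |F1 x - G1 x| ≤ 1 / 2 * d * t := by
    intro x
    have h1 := gstep_exp_mono hGt hg' hgg hg1 ht0 x
    have h2 := gstep_exp_lip hGt hg' hgg hg1 ht0 x
    rw [← eF1, ← hG1] at h1 h2
    rw [abs_le]
    rw [hδ] at h2
    constructor <;> nlinarith
  have hη' : ∀ x, |G1 x - F1 x| ≤ 1 / 2 * d * t := fun x => by rw [abs_sub_comm]; exact hη x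
  -- convexity
  have hconv := casc_convex (m := gm n) (r := r) (l := l) aF1 aG1 h.1 hE1
    (fun i hi => hpath.2 i (by omega)) ⟨_, hη'⟩
  -- the averages
  set f' : ℝ → ℝ → ℝ := fun τ => tlt g' τ (Gb n (gm n) r l τ)
    (fun x => iteratedDeriv 1 (Gb n (gm n) r l τ) x ^ 2) with hf'
  set f : ℝ → ℝ → ℝ := fun τ => tlt g τ (Gb n (gm n) r l τ)
    (fun x => iteratedDeriv 1 (Gb n (gm n) r l τ) x ^ 2) with hf
  have bf' : BcOn t f' := up_bc hF hg hg1 ht.2 g'
  have bf : BcOn t f := up_bc hF hg hg1 ht.2 g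
  have hdiff : ∀ x, G1 x - F1 x = -(1 / 2 * d) * ∫ τ in (0 : ℝ)..t, f' τ x := by
    intro x
    have h1 := gstep_diff hGt hg hg1 hg' hg'1 ht0 x
    rw [← eF1, ← hG1] at h1
    rw [h1]
    have h2 : ∫ τ in (0 : ℝ)..t, tlt g' τ (gstep g (t - τ) (Gb n (gm n) r l t))
        (fun y => iteratedDeriv 1 (gstep g (t - τ) (Gb n (gm n) r l t)) y ^ 2) x =
        ∫ τ in (0 : ℝ)..t, f' τ x := by
      refine intervalIntegral.integral_congr fun τ hτ => ?_
      rw [uIcc_of_le ht0] at hτ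
      simp only [hf']
      rw [up_Gb hm hpath hl hτ.2 ht.2]
    rw [h2, ← hδ]
    ring
  -- change of the tilt
  have htilt : ∀ τ ∈ Icc 0 t, ∀ x, f τ x - 2 * K * d * τ ≤ f' τ x := by
    intro τ hτ x
    have aG := hF.step hg hg1 (show 0 ≤ r (l + 1) - r l - τ by linarith only [ht.2, hτ.2])
    have hE := adm_ec aG
    have h1 : Sp7Cb (fun x => iteratedDeriv 1 (Gb n (gm n) r l τ) x ^ 2) :=
      sp7_cb_sq (sp7_cb_M hE)
    have h2 := hK (g := g) (g' := g') (s := τ) (L := 2) hE hg.le hg1 hg'.le hg'1 hτ.1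
      (hτ.2.trans htb) (by norm_num) h1 (fun x y => by
        have a1 := hE.abs_M x
        have a2 := hE.abs_M y
        have a3 := convex_univ.norm_image_sub_le_of_norm_hasDerivWithin_le
          (f := iteratedDeriv 1 (Gb n (gm n) r l τ)) (s := Set.univ) (C := 1)
          (fun x _ => (hE.d2 x).hasDerivWithinAt) (fun x _ => hE.sm.bD x) (mem_univ y) (mem_univ x)
        rw [Real.norm_eq_abs, Real.norm_eq_abs, one_mul] at a3
        have e : iteratedDeriv 1 (Gb n (gm n) r l τ) x ^ 2 -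
            iteratedDeriv 1 (Gb n (gm n) r l τ) y ^ 2 =
            (iteratedDeriv 1 (Gb n (gm n) r l τ) x + iteratedDeriv 1 (Gb n (gm n) r l τ) y) *
            (iteratedDeriv 1 (Gb n (gm n) r l τ) x - iteratedDeriv 1 (Gb n (gm n) r l τ) y) := by
          ring
        rw [e, abs_mul]
        refine mul_le_mul ?_ a3 (abs_nonneg _) (by norm_num)
        exact (abs_add_le _ _).trans (by
          have e1 : Gb n (gm n) r l τ = gstep g (r (l + 1) - r l - τ) (Fl n (gm n) r (l + 1)) := rfl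
          rw [e1]
          linarith only [a2, a1])) x
    have h3 := (abs_le.1 h2).1
    have h4 : |g' - g| = d := by
      rw [abs_sub_comm, abs_of_nonneg (by linarith only [hd0, hδ])]
      exact hδ
    rw [h4] at h3
    have h5 : f' τ x - f τ x = tlt g' τ (gstep g (r (l + 1) - r l - τ) (Fl n (gm n) r (l + 1)))
      (fun x => iteratedDeriv 1 (Gb n (gm n) r l τ) x ^ 2) x -
      tlt g τ (gstep g (r (l + 1) - r l - τ) (Fl n (gm n) r (l + 1)))
      (fun x => iteratedDeriv 1 (Gb n (gm n) r l τ) x ^ 2) x := rfl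
    rw [← h5] at h3
    linarith only [h3]
  -- integrated
  have cI := var0_cb_int ht0 bf
  have cI' := var0_cb_int ht0 bf'
  have hΦ : ∀ x, (∫ τ in (0 : ℝ)..t, f τ x) + -(K * d * t ^ 2) ≤ ∫ τ in (0 : ℝ)..t, f' τ x := by
    intro x
    have i1 : IntervalIntegrable (fun τ => f τ x) volume 0 t :=
      (bf.time x).intervalIntegrable_of_Icc ht0
    have i2 : IntervalIntegrable (fun τ => f' τ x) volume 0 t :=
      (bf'.time x).intervalIntegrable_of_Icc ht0
    have i3 : IntervalIntegrable (fun τ : ℝ => 2 * K * d * τ) volume 0 t :=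
      (by fun_prop : Continuous fun τ : ℝ => 2 * K * d * τ).intervalIntegrable _ _
    have h1 := intervalIntegral.integral_mono_on ht0 (i1.sub i3) i2 (fun τ hτ => htilt τ hτ x)
    rw [intervalIntegral.integral_sub i1 i3, intervalIntegral.integral_const_mul, integral_id] at h1
    have e : 2 * K * d * ((t ^ 2 - 0 ^ 2) / 2) = K * d * t ^ 2 := by ring
    rw [e] at h1
    linarith only [h1]
  have hΦ0 : ∀ x, 0 ≤ ∫ τ in (0 : ℝ)..t, f τ x := fun x =>
    intervalIntegral.integral_nonneg ht0 fun τ _ => (ex_tlt_mem hF hg hg1 _ τ x).1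
  have hΦ1 : ∀ x, ∫ τ in (0 : ℝ)..t, f τ x ≤ t := by
    intro x
    have i0 : IntervalIntegrable (fun _ : ℝ => (1 : ℝ)) volume 0 t := intervalIntegrable_const
    have h1 := intervalIntegral.integral_mono_on ht0
      ((bf.time x).intervalIntegrable_of_Icc ht0) i0
      (fun τ _ => (ex_tlt_mem hF hg hg1 _ τ x).2)
    rw [intervalIntegral.integral_const, smul_eq_mul, mul_one, sub_zero] at h1
    exact h1
  have hcI := var0_chn_integral (r := r) ht0 l hE1 bf (adm_ec aF1)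
  have hEG := adm_ec aG1
  have hEF := adm_ec aF1
  -- the lower bound of the average
  have h1 : chn (gm n) r l G1 (fun x => G1 x - F1 x) =
      -(1 / 2 * d) * chn (gm n) r l G1 (fun x => ∫ τ in (0 : ℝ)..t, f' τ x) := by
    rw [← long_chn_smul]
    congr 1
    exact funext hdiff
  have h2 : chn (gm n) r l G1 (fun x => ∫ τ in (0 : ℝ)..t, f τ x) + -(K * d * t ^ 2) ≤
      chn (gm n) r l G1 (fun x => ∫ τ in (0 : ℝ)..t, f' τ x) := by
    have := sp7_chn_mono (gm n) r l hE1 hEG (sp7_cb_add cI (sp7_cb_const (-(K * d * t ^ 2)))) cI' hΦ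
    rwa [sp7_chn_add (gm n) r l hE1 hEG cI (sp7_cb_const _), sp7_chn_const (gm n) r l hE1 hEG]
      at this
  have h3 : chn (gm n) r l F1 (fun x => ∫ τ in (0 : ℝ)..t, f τ x) - 2 * (1 / 2 * d * t) * t ≤
      chn (gm n) r l G1 (fun x => ∫ τ in (0 : ℝ)..t, f τ x) :=
    chn_change_sub hm.1 hE1 (fun i hi => (hm.2.2 i (by omega)).le) hg'.le hg'1 hEF hEG cI hΦ0 hΦ1 hη
  have h4 : chn (gm n) r l F1 (fun x => ∫ τ in (0 : ℝ)..t, f τ x) =
      ∫ τ in (0 : ℝ)..t, Rb n (gm n) r l τ := hcI.2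
  have hRi : IntervalIntegrable (Rb n (gm n) r l) volume 0 t :=
    hcI.1.intervalIntegrable_of_Icc ht0
  rw [h1] at hconv
  have h5 : (∫ s in (0 : ℝ)..t, Rb n (gm n) r l s) - (1 + 2 * K) / ((n : ℝ) + 1) * t ^ 2 ≤
      chn (gm n) r l G1 (fun x => ∫ τ in (0 : ℝ)..t, f' τ x) := by
    have e9 : (1 + 2 * K) / ((n : ℝ) + 1) * t ^ 2 = d * t ^ 2 + 2 * K * d * t ^ 2 := by
      rw [hd]
      ring
    rw [e9]
    have h10 : 0 ≤ K * d * t ^ 2 := by (clear * - hK0; positivity)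
    rw [← h4]
    have e11 : 2 * (1 / 2 * d * t) * t = d * t ^ 2 := by ring
    linarith only [h10, h3, h2]
  have h6 := mul_le_mul_of_nonneg_left h5 (show 0 ≤ 1 / 2 * d by positivity)
  linarith only [h6, hconv]

/-- the spin part when the level `l + 1` is moved down inside the block `(l, l + 1)` -/
theorem spin_down (b : ℝ) : ∃ C : ℝ, 1 ≤ C ∧ ∀ (n : ℕ) (r : ℕ → ℝ) (l : ℕ),
    BPath b n r → l < n → ∀ t ∈ Icc 0 (r (l + 1) - r l),
      spinPart n (gm n) (Function.update r (l + 1) (r l + t)) ≤ spinPart n (gm n) r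
        + 1 / 2 * (1 / ((n : ℝ) + 1)) *
          ((∫ s in t..(r (l + 1) - r l), Rb n (gm n) r l s) +
            C / (n + 1) * (r (l + 1) - r l - t) ^ 2) := by
  obtain ⟨K, hK0, htilt⟩ := fvd_tilt (b ^ 2)
  refine ⟨1 + K + Real.exp (b ^ 2), ?_, ?_⟩
  · have := Real.exp_pos (b ^ 2)
    linarith
  intro n r l h hl t ht
  have hm := gm_exponents n
  have hpath := h.2.1
  have hg := long_gm_pos n l
  have hg1 : gm n (l + 1) ≤ 1 := long_gm_le (by omega)
  have hg2 := long_gm_pos n (l + 1)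
  have hg21 : gm n (l + 1 + 1) ≤ 1 := long_gm_le (by omega)
  have hgg := long_gm_lt n (l + 1)
  have hδ := gm_sub n (l + 1)
  have hr0 := long_r_nonneg h hl.le
  have hrb := long_r_le h hl.le
  have hrb1 := long_r_le h (show l + 1 ≤ n by omega)
  have hFs := fl_aks hm hpath (show l + 1 ≤ n by omega)
  have hF := hFs.adm
  have hsucc := fl_succ (m := gm n) (r := r) hl
  have hP := fvd_path h hl ht
  rw [fvd_spin hm h hl ht, minb_spin h.1, fl_split (m := gm n) (r := r) hl.le, hsucc]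
  have ht0 : 0 ≤ t := ht.1
  have hV : 0 ≤ r (l + 1) - r l - t := by linarith [ht.2]
  have hgd2 : gm n (l + 2) = gm n (l + 1 + 1) := rfl
  rw [hgd2]
  have hRbd : ∀ s, Rb n (gm n) r l s = chn (gm n) r l (Fl n (gm n) r l)
      (tlt (gm n (l + 1)) s (gstep (gm n (l + 1)) (r (l + 1) - r l - s) (Fl n (gm n) r (l + 1)))
        (fun x => iteratedDeriv 1 (gstep (gm n (l + 1)) (r (l + 1) - r l - s)
          (Fl n (gm n) r (l + 1))) x ^ 2)) := fun s => rfl
  set F := Fl n (gm n) r (l + 1) with hFd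
  set g := gm n (l + 1) with hgd
  set g₂ := gm n (l + 1 + 1) with hg₂d
  set V := r (l + 1) - r l with hVd
  set W := V - t with hWd
  have hWb : W ≤ b ^ 2 := by linarith
  set r' := Function.update r (l + 1) (r l + t) with hr'd
  -- the two functions
  have hG1 := hF.step hg hg1 hV
  have hG2 := hF.step hg2 hg21 hV
  have e0 : cascade (gm n) r l (gstep g V F) = cascade (gm n) r' (l + 1) (gstep g W F) := by
    rw [hr'd, fvd_casc, ← hgd, gstep_add hF hg ht0 hV]
    congr 2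
    rw [hWd]
    ring
  rw [e0]
  have hE1 : Sp7Exp (gm n) (l + 1) := fun i hi => ⟨long_gm_pos n i, long_gm_le (by omega)⟩
  have hE0 : Sp7Exp (gm n) l := fun i hi => ⟨long_gm_pos n i, long_gm_le (by omega)⟩
  have hd0 : 0 < g₂ - g := by linarith
  set η : ℝ := 1 / 2 * (g₂ - g) * W with hηd
  have hη0 : 0 ≤ η := by positivity
  have hbd : ∀ x, |gstep g₂ W F x - gstep g W F x| ≤ η := by
    intro x
    have h1 := gstep_exp_mono hF hg hgg.le hg21 hV x
    have h2 := gstep_exp_lip hF hg hgg.le hg21 hV x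
    rw [abs_le]
    constructor <;> linarith
  have hΔ0 : ∀ x, 0 ≤ gstep g₂ W F x - gstep g W F x := fun x => by
    have h1 := gstep_exp_mono hF hg hgg.le hg21 hV x
    linarith
  have hconv := casc_convex (m := gm n) (r := r') (l := l + 1) hG1 hG2 hP.1
    hE1 (fun i hi => hP.2.1.2 i (by omega)) ⟨η, hbd⟩
  have cd : Sp7Cb (fun x => gstep g₂ W F x - gstep g W F x) :=
    ⟨(ex_ec hG2).sm.cont.sub (ex_ec hG1).sm.cont, η, hbd⟩
  -- change of the measure
  have hchg := fvd_chn_change (m := gm n) (r := r') (l := l + 1) (by simp [gm]) hE1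
    (fun i hi => (long_gm_lt n i).le) hG2 hG1 (fun i hi => hP.2.1.2 i (by omega)) hbd cd hΔ0
  -- the tilted averages
  set φ : ℝ → ℝ → ℝ := fun τ => tlt g₂ τ (gstep g (W - τ) F)
    (fun y => iteratedDeriv 1 (gstep g (W - τ) F) y ^ 2) with hφ
  set φ₁ : ℝ → ℝ → ℝ := fun τ => tlt g τ (gstep g (W - τ) F)
    (fun y => iteratedDeriv 1 (gstep g (W - τ) F) y ^ 2) with hφ₁
  have hφc : ContinuousOn (fun p : ℝ × ℝ => φ p.1 p.2) (Icc 0 W ×ˢ univ) :=
    fvd_joint hF hg g₂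
  have hφ₁c : ContinuousOn (fun p : ℝ × ℝ => φ₁ p.1 p.2) (Icc 0 W ×ˢ univ) :=
    fvd_joint hF hg g
  have hφm : ∀ τ x, 0 ≤ φ τ x ∧ φ τ x ≤ 1 := fun τ x => ex_tlt_mem hF hg hg1 (W - τ) τ x
  have hφ₁m : ∀ τ x, 0 ≤ φ₁ τ x ∧ φ₁ τ x ≤ 1 := fun τ x => ex_tlt_mem hF hg hg1 (W - τ) τ x
  have hφb : ∀ τ ∈ Icc 0 W, ∀ x, |φ τ x| ≤ 1 := fun τ _ x => by
    rw [abs_of_nonneg (hφm τ x).1]; exact (hφm τ x).2
  have hφ₁b : ∀ τ ∈ Icc 0 W, ∀ x, |φ₁ τ x| ≤ 1 := fun τ _ x => by
    rw [abs_of_nonneg (hφ₁m τ x).1]; exact (hφ₁m τ x).2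
  have hdiff : ∀ x, gstep g₂ W F x - gstep g W F x =
      1 / 2 * (g₂ - g) * ∫ τ in (0 : ℝ)..W, φ τ x := fun x =>
    gstep_diff hF hg hg1 hg2 hg21 hV x
  have hint := chn_integral (m := gm n) (r := r') (l := l + 1) hE1 (ex_ec hG1) hV hφc hφb
  have hint₁ := chn_integral (m := gm n) (r := r') (l := l + 1) hE1 (ex_ec hG1) hV hφ₁c hφ₁b
  obtain ⟨X, hX⟩ : ∃ X, X = ∫ τ in (0 : ℝ)..W, chn (gm n) r' (l + 1) (gstep g W F) (φ τ) := ⟨_, rfl⟩
  have hXe : chn (gm n) r' (l + 1) (gstep g W F) (fun x => gstep g₂ W F x - gstep g W F x) =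
      1 / 2 * (g₂ - g) * X := by
    have e1 : (fun x => gstep g₂ W F x - gstep g W F x) =
        fun x => 1 / 2 * (g₂ - g) * ∫ τ in (0 : ℝ)..W, φ τ x := funext hdiff
    rw [e1, long_chn_smul, hint.2, hX]
  -- the values of `Rb`
  have hRb : ∀ τ ∈ Icc 0 W, chn (gm n) r' (l + 1) (gstep g W F) (φ₁ τ) = Rb n (gm n) r l (t + τ) := by
    intro τ hτ
    have hτ' : 0 ≤ W - τ := by linarith [hτ.2]
    have hGτ := hF.step hg hg1 hτ'
    have e1 : gstep g W F = gstep g τ (gstep g (W - τ) F) := by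
      rw [gstep_add hF hg hτ.1 hτ']
      congr 1
      ring
    have e2 : V - (t + τ) = W - τ := by rw [hWd]; ring
    rw [hRbd, hr'd, fvd_chn, ← hgd, e2, hsucc, gstep_add hF hg ht0 hV]
    congr 1
    · congr 1
      rw [hWd]; ring
    · funext x
      simp only [hφ₁]
      rw [e1, tlt_comp hGτ hg ht0 hτ.1 (sp7_cb_sq (nest_cb1 hGτ))]
  -- comparison of the tilts
  have hle : ∀ τ ∈ Icc 0 W, chn (gm n) r' (l + 1) (gstep g W F) (φ τ) ≤
      Rb n (gm n) r l (t + τ) + K * (g₂ - g) * W := by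
    intro τ hτ
    rw [← hRb τ hτ]
    have hτ' : 0 ≤ W - τ := by linarith [hτ.2]
    have hGτ := hF.step hg hg1 hτ'
    have c1 : Sp7Cb (φ τ) := sp7_cb_tlt (ex_ec hGτ) (sp7_cb_sq (nest_cb1 hGτ)) _ _
    have c2 : Sp7Cb (φ₁ τ) := sp7_cb_tlt (ex_ec hGτ) (sp7_cb_sq (nest_cb1 hGτ)) _ _
    have h1 := sp7_chn_mono (gm n) r' (l + 1) hE1 (ex_ec hG1) c1
      (sp7_cb_add c2 (sp7_cb_const (K * (g₂ - g) * W))) (fun x => by
        have h2 := htilt _ _ _ _ hGτ hg hgg.le hg21 τ ⟨hτ.1, hτ.2.trans hWb⟩ x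
        have h3 : K * (g₂ - g) * τ ≤ K * (g₂ - g) * W :=
          mul_le_mul_of_nonneg_left hτ.2 (mul_nonneg hK0 hd0.le)
        have h4 := (abs_le.1 h2).2
        simp only [hφ, hφ₁]
        linarith)
    rwa [sp7_chn_add (gm n) r' (l + 1) hE1 (ex_ec hG1) c2 (sp7_cb_const _),
      sp7_chn_const (gm n) r' (l + 1) hE1 (ex_ec hG1)] at h1
  have hRc : ContinuousOn (fun τ => Rb n (gm n) r l (t + τ)) (Icc 0 W) :=
    hint₁.1.congr fun τ hτ => (hRb τ hτ).symm
  have hX0 : 0 ≤ X := by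
    rw [hX]
    refine intervalIntegral.integral_nonneg hV fun τ hτ => ?_
    have hτ' : 0 ≤ W - τ := by linarith [hτ.2]
    have hGτ := hF.step hg hg1 hτ'
    have h1 := sp7_chn_mono (gm n) r' (l + 1) hE1 (ex_ec hG1) (sp7_cb_const 0)
      (sp7_cb_tlt (ex_ec hGτ) (sp7_cb_sq (nest_cb1 hGτ)) g₂ τ) (fun x => (hφm τ x).1)
    rwa [sp7_chn_const (gm n) r' (l + 1) hE1 (ex_ec hG1)] at h1
  have hX1 : X ≤ W := by
    have h1 : X ≤ ∫ _τ in (0 : ℝ)..W, (1 : ℝ) := by
      rw [hX]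
      refine intervalIntegral.integral_mono_on hV (hint.1.intervalIntegrable_of_Icc hV)
        intervalIntegrable_const fun τ hτ => ?_
      have hτ' : 0 ≤ W - τ := by linarith [hτ.2]
      have hGτ := hF.step hg hg1 hτ'
      have h1 := sp7_chn_mono (gm n) r' (l + 1) hE1 (ex_ec hG1)
        (sp7_cb_tlt (ex_ec hGτ) (sp7_cb_sq (nest_cb1 hGτ)) g₂ τ) (sp7_cb_const 1)
        (fun x => (hφm τ x).2)
      rwa [sp7_chn_const (gm n) r' (l + 1) hE1 (ex_ec hG1)] at h1
    rwa [intervalIntegral.integral_const, smul_eq_mul, mul_one, sub_zero] at h1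
  have hX2 : X ≤ (∫ s in t..V, Rb n (gm n) r l s) + K * (g₂ - g) * W ^ 2 := by
    have h1 : X ≤ ∫ τ in (0 : ℝ)..W, (Rb n (gm n) r l (t + τ) + K * (g₂ - g) * W) := by
      rw [hX]
      refine intervalIntegral.integral_mono_on hV (hint.1.intervalIntegrable_of_Icc hV)
        ((hRc.intervalIntegrable_of_Icc hV).add intervalIntegrable_const) fun τ hτ => hle τ hτ
    rw [intervalIntegral.integral_add (hRc.intervalIntegrable_of_Icc hV) intervalIntegrable_const,
      intervalIntegral.integral_const, smul_eq_mul, sub_zero,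
      intervalIntegral.integral_comp_add_left (fun s => Rb n (gm n) r l s) t, add_zero] at h1
    have e1 : t + W = V := by rw [hWd]; ring
    rw [e1] at h1
    refine h1.trans (le_of_eq ?_)
    ring
  -- the inequality from the minimality
  have hexp : Real.exp (2 * η) ≤ 1 + Real.exp (b ^ 2) * ((g₂ - g) * W) := by
    have e1 : 2 * η = (g₂ - g) * W := by rw [hηd]; ring
    rw [e1]
    set u := (g₂ - g) * W with hu
    have hu0 : 0 ≤ u := mul_nonneg hd0.le hV
    have hu1 : u ≤ b ^ 2 := by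
      have h1 : g₂ - g ≤ 1 := by linarith
      calc u ≤ 1 * W := mul_le_mul_of_nonneg_right h1 hV
        _ ≤ b ^ 2 := by rw [one_mul]; exact hWb
    have h7 := Real.add_one_le_exp (-u)
    have h8 := Real.exp_pos u
    have h9 : Real.exp (-u) * Real.exp u = 1 := by rw [← Real.exp_add]; simp
    have h10 := mul_le_mul_of_nonneg_right h7 h8.le
    rw [h9] at h10
    have h11 : Real.exp u ≤ Real.exp (b ^ 2) := Real.exp_le_exp.2 hu1
    have h12 := mul_le_mul_of_nonneg_left h11 hu0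
    linarith
  rw [hXe] at hchg
  have hmain3 : Real.exp (2 * η) * X ≤ X + Real.exp (b ^ 2) * (g₂ - g) * W ^ 2 := by
    have h1 := mul_le_mul_of_nonneg_right hexp hX0
    have h2 : Real.exp (b ^ 2) * ((g₂ - g) * W) * X ≤ Real.exp (b ^ 2) * ((g₂ - g) * W) * W :=
      mul_le_mul_of_nonneg_left hX1
        (mul_nonneg (Real.exp_pos _).le (mul_nonneg hd0.le hV))
    have e1 : (1 + Real.exp (b ^ 2) * ((g₂ - g) * W)) * X =
        X + Real.exp (b ^ 2) * ((g₂ - g) * W) * X := by ring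
    rw [e1] at h1
    refine h1.trans ?_
    have e5 : Real.exp (b ^ 2) * ((g₂ - g) * W) * W = Real.exp (b ^ 2) * (g₂ - g) * W ^ 2 := by ring
    linarith
  have e4 : Real.exp (2 * η) * (1 / 2 * (g₂ - g) * X) =
      (1 / 2 * (g₂ - g)) * (Real.exp (2 * η) * X) := by ring
  rw [e4] at hchg
  have hN : (0 : ℝ) < 1 / ((n : ℝ) + 1) := by positivity
  rw [hδ] at hX2 hmain3 hchg
  have e6 : (1 + K + Real.exp (b ^ 2)) / ((n : ℝ) + 1) * W ^ 2 =
      1 / ((n : ℝ) + 1) * W ^ 2 + K * (1 / ((n : ℝ) + 1)) * W ^ 2 +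
        Real.exp (b ^ 2) * (1 / ((n : ℝ) + 1)) * W ^ 2 := by ring
  rw [e6]
  have h20 : 0 ≤ 1 / ((n : ℝ) + 1) * W ^ 2 := by positivity
  have h21 : Real.exp (2 * η) * X ≤ (∫ s in t..V, Rb n (gm n) r l s) +
      (1 / ((n : ℝ) + 1) * W ^ 2 + K * (1 / ((n : ℝ) + 1)) * W ^ 2 +
        Real.exp (b ^ 2) * (1 / ((n : ℝ) + 1)) * W ^ 2) := by
    linarith only [h20, hX2, hmain3]
  have h22 := mul_le_mul_of_nonneg_left h21 (show 0 ≤ 1 / 2 * (1 / ((n : ℝ) + 1)) by positivity)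
  linarith only [h22, hconv, hchg]

end Vale.Agent.P146.H22.Par
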