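import Mathlib
import Vale.Agent.P146.H22.ParA

set_option linter.all false

/-!
# P146, H22: the Parisi side with a field, part B

The functional with a field of variance `W` at the levels `l ≥ d`: existence of minimisers,
stationarity, and the two one-level variations.
-/

open MeasureTheory ProbabilityTheory Filter Topology Set

namespace Vale.Agent.P146.H22.Par

open Vale.Agent.P157.Par
open Vale.Agent.P146.Gap
open Vale.Agent.P146.Pw2
open Vale.Agent.P367.Cl
open Vale.Agent.P146.Lb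

/-- The functional with a field of variance `W` (the constant term is not included). -/
noncomputable def SKW (b W : ℝ) (n : ℕ) (r : ℕ → ℝ) : ℝ :=
  SKr b n (gm n) r -
    W / (2 * b ^ 2) * ∑ l ∈ Finset.range (n + 1), (gm n (l + 1) - gm n l) * r l

/-- `r` is a minimiser of the functional with field over the paths which vanish below `d`. -/
def IsMinW (b W : ℝ) (n d : ℕ) (r : ℕ → ℝ) : Prop :=
  BPath (√(b ^ 2 + 1)) n r ∧ (∀ l < d, r l = 0) ∧
    ∀ r', BPath (√(b ^ 2 + 1)) n r' → (∀ l < d, r' l = 0) → SKW b W n r ≤ SKW b W n r'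

theorem sq_B (b : ℝ) : √(b ^ 2 + 1) ^ 2 = b ^ 2 + 1 := Real.sq_sqrt (by positivity)

theorem SKW_congr {b W : ℝ} {n : ℕ} {r r' : ℕ → ℝ} (h : ∀ l ≤ n, r l = r' l) :
    SKW b W n r = SKW b W n r' := by
  unfold SKW
  rw [minb_SKr_congr h]
  congr 2
  refine Finset.sum_congr rfl fun l hl => ?_
  rw [h l (by simpa [Nat.lt_succ_iff] using hl)]

/-- existence of a minimiser -/
theorem exists_minW {b W : ℝ} {n d : ℕ} (hd : d ≤ n) : ∃ r, IsMinW b W n d r := by
  have hm := gm_exponents n
  obtain ⟨emono, e0, e1⟩ := minb_exp hm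
  obtain ⟨B, hB⟩ : ∃ B : ℝ, B = √(b ^ 2 + 1) := ⟨_, rfl⟩
  unfold IsMinW
  rw [← hB]
  set X : Set (Fin (n + 1) → ℝ) := {x | BPath B n (minbFin n x) ∧ ∀ l < d, minbFin n x l = 0}
    with hX
  have hclosed : IsClosed X := by
    have h1 : X = ({x | minbFin n x 0 = 0} ∩ ({x | 0 ≤ minbFin n x 0} ∩
        (⋂ l : ℕ, ⋂ _ : l < n, {x | minbFin n x l ≤ minbFin n x (l + 1)})) ∩
        {x | minbFin n x n ≤ B ^ 2}) ∩ (⋂ l : ℕ, ⋂ _ : l < d, {x | minbFin n x l = 0}) := by
      ext x
      simp only [hX, BPath, Vale.Agent.P157.Par.Path, Set.mem_ofPred_eq, mem_inter_iff, mem_iInter]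
      tauto
    rw [h1]
    refine IsClosed.inter (IsClosed.inter (IsClosed.inter ?_ (IsClosed.inter ?_ ?_)) ?_) ?_
    · exact isClosed_eq (minb_fin_cont n 0) continuous_const
    · exact isClosed_le continuous_const (minb_fin_cont n 0)
    · exact isClosed_iInter fun l => isClosed_iInter fun _ =>
        isClosed_le (minb_fin_cont n l) (minb_fin_cont n (l + 1))
    · exact isClosed_le (minb_fin_cont n n) continuous_const
    · exact isClosed_iInter fun l => isClosed_iInter fun _ =>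
        isClosed_eq (minb_fin_cont n l) continuous_const
  have hsub : X ⊆ Icc (fun _ => 0) (fun _ => B ^ 2) := by
    intro x hx
    obtain ⟨⟨h0, ⟨-, h1⟩, h2⟩, -⟩ := hx
    have key : ∀ i : Fin (n + 1), minbFin n x i = x i := fun i => by
      unfold minbFin; rw [dif_pos i.2]
    constructor
    · intro i
      have := minb_mono h1 (Nat.zero_le i) (by omega)
      rw [h0, key i] at this
      exact this
    · intro i
      have := minb_mono h1 (i := i) (j := n) (by omega) le_rfl
      rw [key i] at this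
      exact this.trans h2
  have hcomp : IsCompact X := (isCompact_Icc).of_isClosed_subset hclosed hsub
  have hne : X.Nonempty := by
    refine ⟨fun _ => 0, ?_⟩
    have : minbFin n (fun _ => 0) = fun _ => 0 := by
      funext l; unfold minbFin; split_ifs <;> rfl
    rw [hX, Set.mem_ofPred_eq, this]
    exact ⟨⟨rfl, ⟨le_rfl, fun _ _ => le_rfl⟩, by positivity⟩, fun _ _ => rfl⟩
  have hlip : LipschitzOnWith (Real.toNNReal n)
      (fun x : Fin (n + 1) → ℝ => cascade (gm n) (minbFin n x) n lc 0) X := by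
    apply LipschitzOnWith.of_dist_le_mul
    intro x hx y hy
    have h1 := minb_cascade_lip (c := n) (fun l h1 h2 => e0 l h1 (by omega))
      (fun l h1 h2 => e1 l (by omega)) hx.1.2.1.2 hy.1.2.1.2 adm_lc adm_lc (e := 0)
      (fun z => by simp) 0
    rw [Real.dist_eq]
    refine h1.trans ?_
    rw [zero_add, Real.coe_toNNReal _ (Nat.cast_nonneg n)]
    have h2 : ∑ l ∈ Finset.range n, |(minbFin n x (l + 1) - minbFin n x l)
        - (minbFin n y (l + 1) - minbFin n y l)| ≤ ∑ l ∈ Finset.range n, 2 * dist x y := by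
      refine Finset.sum_le_sum fun l _ => ?_
      have a1 := minb_fin_dist n (l + 1) x y
      have a2 := minb_fin_dist n l x y
      calc _ = |(minbFin n x (l + 1) - minbFin n y (l + 1))
            - (minbFin n x l - minbFin n y l)| := by congr 1; ring
        _ ≤ _ := abs_sub _ _
        _ ≤ _ := by linarith
    rw [Finset.sum_const, Finset.card_range, nsmul_eq_mul] at h2
    linarith
  have hcont : ContinuousOn (fun x : Fin (n + 1) → ℝ => SKW b W n (minbFin n x)) X := by
    have h1 : ContinuousOn (fun x : Fin (n + 1) → ℝ =>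
        cascade (gm n) (minbFin n x) n lc 0 - minbFin n x n / 2 + b ^ 2 / 4
          + (∑ l ∈ Finset.range (n + 1), (gm n (l + 1) - gm n l) * minbFin n x l ^ 2) /
            (4 * b ^ 2) - W / (2 * b ^ 2) *
            ∑ l ∈ Finset.range (n + 1), (gm n (l + 1) - gm n l) * minbFin n x l) X := by
      refine ContinuousOn.sub (ContinuousOn.add (ContinuousOn.add
        (ContinuousOn.sub hlip.continuousOn ?_) ?_) ?_) ?_
      · exact ((minb_fin_cont n n).div_const 2).continuousOn
      · exact continuousOn_const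
      · refine (Continuous.div_const (continuous_finsetSum _ fun l _ => ?_) _).continuousOn
        exact continuous_const.mul ((minb_fin_cont n l).pow 2)
      · refine (continuous_const.mul (continuous_finsetSum _ fun l _ => ?_)).continuousOn
        exact continuous_const.mul (minb_fin_cont n l)
    refine h1.congr fun x hx => ?_
    simp only [SKW, SKr]
    rw [minb_spin hx.1.1]
  obtain ⟨x, hx, hxm⟩ := hcomp.exists_isMinOn hne hcont
  refine ⟨minbFin n x, hx.1, hx.2, fun r' hr' hr0 => ?_⟩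
  have h1 : ∀ l ≤ n, r' l = minbFin n (fun i => r' i) l := fun l hl => by
    unfold minbFin; rw [dif_pos (by omega)]
  have h2 : BPath B n (minbFin n (fun i => r' i)) := by
    obtain ⟨a0, ⟨a1, a2⟩, a3⟩ := hr'
    refine ⟨by rw [← h1 0 (by omega)]; exact a0, ⟨by rw [← h1 0 (by omega)]; exact a1,
      fun l hl => ?_⟩, by rw [← h1 n le_rfl]; exact a3⟩
    rw [← h1 l (by omega), ← h1 (l + 1) (by omega)]; exact a2 l hl
  have h3 : ∀ l < d, minbFin n (fun i => r' i) l = 0 := fun l hl => by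
    rw [← h1 l (by omega)]; exact hr0 l hl
  rw [SKW_congr h1]
  exact hxm (a := fun i => r' i) ⟨h2, h3⟩

/-- stationarity -/
theorem statW {b W : ℝ} (hb : 0 < b) (hW : 0 ≤ W) (hW1 : W ≤ 1) {n d : ℕ} {r : ℕ → ℝ}
    (hd : 1 ≤ d) (h : IsMinW b W n d r) :
    ∀ l ≤ n, d ≤ l → r l = W + b ^ 2 * spR n (gm n) r l := by
  obtain ⟨hr, hr0, hmin⟩ := h
  have hm := gm_exponents n
  have hb2 : 0 < b ^ 2 := by positivity
  -- the competitor
  set r' : ℕ → ℝ := fun l => if d ≤ l then W + b ^ 2 * spR n (gm n) r l else 0 with hr'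
  have e : ∀ l, d ≤ l → r' l = W + b ^ 2 * spR n (gm n) r l := fun l hl => by
    simp only [hr', if_pos hl]
  have h0' : ∀ l < d, r' l = 0 := fun l hl => by
    simp only [hr', if_neg (by omega : ¬ d ≤ l)]
  have hB' : BPath (√(b ^ 2 + 1)) n r' := by
    refine ⟨h0' 0 (by omega), ⟨(h0' 0 (by omega)).ge, fun l hl => ?_⟩, ?_⟩
    · by_cases h1 : d ≤ l
      · rw [e l h1, e (l + 1) (by omega)]
        have := mul_le_mul_of_nonneg_left (spR_mono hm hr.2.1 hl) hb2.le
        linarith
      · rw [h0' l (by omega)]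
        by_cases h2 : d ≤ l + 1
        · rw [e _ h2]
          have := mul_nonneg hb2.le (spR_nonneg hm hr.2.1 (show l + 1 ≤ n by omega))
          linarith
        · rw [h0' _ (by omega)]
    · rw [sq_B]
      by_cases h1 : d ≤ n
      · rw [e n h1]
        have := mul_le_of_le_one_right hb2.le (spR_lt_one hm hr.2.1 (le_refl n)).le
        linarith
      · rw [h0' n (by omega)]
        linarith
  have h2 := hmin r' hB' h0'
  have ht := tangent_path hm hr.2.1 hB'.2.1
  have e1 : (∑ l ∈ Finset.range (n + 1), (gm n (l + 1) - gm n l) * r' l ^ 2) / (4 * b ^ 2) -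
      1 / 2 * ∑ l ∈ Finset.range (n + 1),
        (gm n (l + 1) - gm n l) * spR n (gm n) r l * (r' l - r l) -
      W / (2 * b ^ 2) * ∑ l ∈ Finset.range (n + 1), (gm n (l + 1) - gm n l) * r' l =
      (∑ l ∈ Finset.range (n + 1), (gm n (l + 1) - gm n l) * r l ^ 2) / (4 * b ^ 2) -
      W / (2 * b ^ 2) * (∑ l ∈ Finset.range (n + 1), (gm n (l + 1) - gm n l) * r l) -
      (∑ l ∈ Finset.range (n + 1), (gm n (l + 1) - gm n l) * (r' l - r l) ^ 2) /
        (4 * b ^ 2) := by
    rw [Finset.mul_sum, Finset.mul_sum, Finset.mul_sum, Finset.sum_div, Finset.sum_div,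
      Finset.sum_div, ← Finset.sum_sub_distrib, ← Finset.sum_sub_distrib,
      ← Finset.sum_sub_distrib, ← Finset.sum_sub_distrib]
    refine Finset.sum_congr rfl fun l _ => ?_
    by_cases h1 : d ≤ l
    · rw [e l h1]
      field_simp
      ring
    · rw [h0' l (by omega), hr0 l (by omega)]
      simp
  have hp : ∀ l ∈ Finset.range (n + 1), 0 ≤ (gm n (l + 1) - gm n l) * (r' l - r l) ^ 2 :=
    fun l hl => mul_nonneg
      (sub_pos.2 (hm.2.2 l (Nat.lt_succ_iff.1 (Finset.mem_range.1 hl)))).le (sq_nonneg _)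
  have h3 : (∑ l ∈ Finset.range (n + 1), (gm n (l + 1) - gm n l) * (r' l - r l) ^ 2) = 0 := by
    refine le_antisymm ?_ (Finset.sum_nonneg hp)
    unfold SKW SKr at h2
    have h4 : (∑ l ∈ Finset.range (n + 1),
        (gm n (l + 1) - gm n l) * (r' l - r l) ^ 2) / (4 * b ^ 2) ≤ 0 := by
      linarith
    by_contra h5
    push Not at h5
    exact absurd (div_pos h5 (show 0 < 4 * b ^ 2 by positivity)) (not_lt.2 h4)
  intro l hl hdl
  have h5 := (Finset.sum_eq_zero_iff_of_nonneg hp).1 h3 l (Finset.mem_range.2 (by omega))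
  have h6 : 0 < gm n (l + 1) - gm n l := sub_pos.2 (hm.2.2 l hl)
  rcases mul_eq_zero.1 h5 with h7 | h7
  · exact absurd h7 h6.ne'
  · have := pow_eq_zero_iff (n := 2) (by norm_num) |>.1 h7
    rw [← e l hdl]
    linarith

/-- the sums of the modified path -/
theorem lin_sum {n : ℕ} {m r : ℕ → ℝ} {l : ℕ} (hl : l ≤ n) (c : ℝ) :
    ∑ i ∈ Finset.range (n + 1), (m (i + 1) - m i) * Function.update r l c i =
      ∑ i ∈ Finset.range (n + 1), (m (i + 1) - m i) * r i +
        (m (l + 1) - m l) * (c - r l) := by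
  have hmem : l ∈ Finset.range (n + 1) := by rw [Finset.mem_range]; omega
  rw [← Finset.add_sum_erase _ _ hmem, ← Finset.add_sum_erase (Finset.range (n + 1))
    (fun i => (m (i + 1) - m i) * r i) hmem]
  have h1 : ∑ i ∈ (Finset.range (n + 1)).erase l,
      (m (i + 1) - m i) * Function.update r l c i =
      ∑ i ∈ (Finset.range (n + 1)).erase l, (m (i + 1) - m i) * r i := by
    refine Finset.sum_congr rfl fun i hi => ?_
    rw [Function.update_of_ne (Finset.ne_of_mem_erase hi)]
  rw [h1, Function.update_self]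
  ring

theorem sq_sum {n : ℕ} {m r : ℕ → ℝ} {l : ℕ} (hl : l ≤ n) (c : ℝ) :
    ∑ i ∈ Finset.range (n + 1), (m (i + 1) - m i) * Function.update r l c i ^ 2 =
      ∑ i ∈ Finset.range (n + 1), (m (i + 1) - m i) * r i ^ 2 +
        (m (l + 1) - m l) * (c ^ 2 - r l ^ 2) := by
  have hmem : l ∈ Finset.range (n + 1) := by rw [Finset.mem_range]; omega
  rw [← Finset.add_sum_erase _ _ hmem, ← Finset.add_sum_erase (Finset.range (n + 1))
    (fun i => (m (i + 1) - m i) * r i ^ 2) hmem]
  have h1 : ∑ i ∈ (Finset.range (n + 1)).erase l,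
      (m (i + 1) - m i) * Function.update r l c i ^ 2 =
      ∑ i ∈ (Finset.range (n + 1)).erase l, (m (i + 1) - m i) * r i ^ 2 := by
    refine Finset.sum_congr rfl fun i hi => ?_
    rw [Function.update_of_ne (Finset.ne_of_mem_erase hi)]
  rw [h1, Function.update_self]
  ring

/-- the functional of the modified path -/
theorem SKW_update {b W : ℝ} (hb : 0 < b) {n : ℕ} {r : ℕ → ℝ} {l : ℕ} (hl : l ≤ n) (c : ℝ) :
    SKW b W n (Function.update r l c) = SKW b W n r +
      (spinPart n (gm n) (Function.update r l c) - spinPart n (gm n) r) +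
      1 / 2 * (1 / ((n : ℝ) + 1)) * (((c - W) ^ 2 - (r l - W) ^ 2) / (2 * b ^ 2)) := by
  unfold SKW SKr
  rw [lin_sum hl, sq_sum hl, gm_sub]
  field_simp
  ring

theorem lin_int {b a W x y : ℝ} (hb : 0 < b) :
    ∫ s in x..y, (a + s - W) / b ^ 2 = ((a + y - W) ^ 2 - (a + x - W) ^ 2) / (2 * b ^ 2) := by
  have e : ∀ s : ℝ, (a + s - W) / b ^ 2 = ((a - W) + s) / b ^ 2 := fun s => by ring
  simp only [e]
  rw [intervalIntegral.integral_div, intervalIntegral.integral_add intervalIntegrable_const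
    intervalIntegral.intervalIntegrable_id, intervalIntegral.integral_const, integral_id,
    smul_eq_mul]
  field_simp
  ring

theorem var_upW {b : ℝ} (hb : 0 < b) : ∃ C : ℝ, 1 ≤ C ∧ ∀ (n d : ℕ) (r : ℕ → ℝ) (l : ℕ) (W : ℝ),
    IsMinW b W n d r → 1 ≤ l → d ≤ l → l < n → ∀ t ∈ Icc 0 (r (l + 1) - r l),
      ∫ s in (0 : ℝ)..t, (Rb n (gm n) r l s - (r l + s - W) / b ^ 2) ≤ C / (n + 1) * t ^ 2 := by
  obtain ⟨C, hC, hup⟩ := spin_up (√(b ^ 2 + 1))
  refine ⟨C, hC, fun n d r l W h hl1 hdl hl t ht => ?_⟩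
  have hm := gm_exponents n
  have h1 := hup n r l h.1 hl1 hl t ht
  have h2 := h.2.2 _ (up_path h.1 hl1 hl ht) (fun i hi => by
    rw [Function.update_of_ne (by omega)]
    exact h.2.1 i hi)
  rw [SKW_update hb hl.le] at h2
  have hRi : IntervalIntegrable (Rb n (gm n) r l) volume 0 t :=
    ((Rb_cont hm h.1.2.1 hl).mono (Icc_subset_Icc_right ht.2)).intervalIntegrable_of_Icc ht.1
  have i4 : IntervalIntegrable (fun s : ℝ => (r l + s - W) / b ^ 2) volume 0 t :=
    (by fun_prop : Continuous fun s : ℝ => (r l + s - W) / b ^ 2).intervalIntegrable _ _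
  rw [intervalIntegral.integral_sub hRi i4, lin_int hb, add_zero]
  have hp : (0 : ℝ) < 1 / 2 * (1 / ((n : ℝ) + 1)) := by positivity
  have h3 : 1 / 2 * (1 / ((n : ℝ) + 1)) *
      ((∫ s in (0 : ℝ)..t, Rb n (gm n) r l s) - C / (n + 1) * t ^ 2) ≤
      1 / 2 * (1 / ((n : ℝ) + 1)) * (((r l + t - W) ^ 2 - (r l - W) ^ 2) / (2 * b ^ 2)) := by
    linarith
  have h4 := le_of_mul_le_mul_left h3 hp
  linarith

theorem var_downW {b : ℝ} (hb : 0 < b) : ∃ C : ℝ, 1 ≤ C ∧ ∀ (n d : ℕ) (r : ℕ → ℝ) (l : ℕ) (W : ℝ),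
    IsMinW b W n d r → l < n → d ≤ l + 1 → ∀ t ∈ Icc 0 (r (l + 1) - r l),
      -(C / (n + 1) * (r (l + 1) - r l - t) ^ 2) ≤
        ∫ s in t..(r (l + 1) - r l), (Rb n (gm n) r l s - (r l + s - W) / b ^ 2) := by
  obtain ⟨C, hC, hdn⟩ := spin_down (√(b ^ 2 + 1))
  refine ⟨C, hC, fun n d r l W h hl hd t ht => ?_⟩
  have hm := gm_exponents n
  have h1 := hdn n r l h.1 hl t ht
  have h2 := h.2.2 _ (fvd_path h.1 hl ht) (fun i hi => by
    rw [Function.update_of_ne (by omega)]
    exact h.2.1 i hi)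
  rw [SKW_update hb hl] at h2
  have hRi : IntervalIntegrable (Rb n (gm n) r l) volume t (r (l + 1) - r l) :=
    ((Rb_cont hm h.1.2.1 hl).mono (Icc_subset_Icc_left ht.1)).intervalIntegrable_of_Icc ht.2
  have i4 : IntervalIntegrable (fun s : ℝ => (r l + s - W) / b ^ 2) volume t (r (l + 1) - r l) :=
    (by fun_prop : Continuous fun s : ℝ => (r l + s - W) / b ^ 2).intervalIntegrable _ _
  rw [intervalIntegral.integral_sub hRi i4, lin_int hb]
  have e1 : r l + (r (l + 1) - r l) - W = r (l + 1) - W := by ring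
  rw [e1]
  have hp : (0 : ℝ) < 1 / 2 * (1 / ((n : ℝ) + 1)) := by positivity
  have h3 : 1 / 2 * (1 / ((n : ℝ) + 1)) *
      (((r (l + 1) - W) ^ 2 - (r l + t - W) ^ 2) / (2 * b ^ 2)) ≤
      1 / 2 * (1 / ((n : ℝ) + 1)) * ((∫ s in t..(r (l + 1) - r l), Rb n (gm n) r l s) +
        C / (n + 1) * (r (l + 1) - r l - t) ^ 2) := by
    have e2 : ((r (l + 1) - W) ^ 2 - (r l + t - W) ^ 2) / (2 * b ^ 2) =
        -(((r l + t - W) ^ 2 - (r (l + 1) - W) ^ 2) / (2 * b ^ 2)) := by ring
    rw [e2]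
    linarith
  have h4 := le_of_mul_le_mul_left h3 hp
  linarith

end Vale.Agent.P146.H22.Par
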