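import Mathlib
import Vale.Agent.P146.H22.ParB

set_option linter.all false

/-!
# P146, H22: the Parisi side with a field, part C

The uniform bound of `Mb - 1/b²` on the blocks above `d`, and the lower bound of the last level,
for the minimiser with a field.
-/

open MeasureTheory ProbabilityTheory Filter Topology Set

namespace Vale.Agent.P146.H22.Par

open Vale.Agent.P157.Par
open Vale.Agent.P146.Gap
open Vale.Agent.P146.Pw2
open Vale.Agent.P367.Cl
open Vale.Agent.P146.Lb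

/-- uniform bound on the blocks `l ≥ d` of positive length -/
theorem unifW {b : ℝ} (hb : 0 < b) : ∃ C : ℝ, 1 ≤ C ∧ ∀ (n d : ℕ) (r : ℕ → ℝ) (l : ℕ)
    (e W : ℝ), 0 ≤ W → W ≤ 1 → 1 ≤ d →
    IsMinW b W n d r → d ≤ l → l < n → r l < r (l + 1) → 0 < e → 1 ≤ e ^ 4 * (n + 1) →
      ∀ t ∈ Icc 0 (r (l + 1) - r l), |Mb n (gm n) r l t - 1 / b ^ 2| ≤ C * e := by
  have hb0 : 0 < b := hb
  have hb2 : 0 < b ^ 2 := by positivity
  obtain ⟨C1, hC1, h1⟩ := M1b_bd (√(b ^ 2 + 1))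
  obtain ⟨C2, hC2, h2⟩ := var_upW hb0
  obtain ⟨C3, hC3, h3⟩ := var_downW hb0
  obtain ⟨C, hCd⟩ : ∃ C, C = C1 + C2 + C3 := ⟨_, rfl⟩
  have hC0 : 1 ≤ C := by rw [hCd]; linarith
  obtain ⟨C', hC', hblk⟩ := real_block (C := C) (S := b ^ 2 + 1) hC0 (by positivity)
  refine ⟨1 + 4 * C1 * C' * (b ^ 2 + 1), by
    have : 0 ≤ 4 * C1 * C' * (b ^ 2 + 1) := by positivity
    linarith, fun n d r l e W hW0 hW1 hd1' hr hdl hl hlt he hen t₀ ht₀ => ?_⟩
  have hm := gm_exponents n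
  have hBP := hr.1
  have hpath := hBP.2.1
  have hr0 := hBP.1
  have hfix := statW hb0 hW0 hW1 hd1' hr
  have hn0 : (0 : ℝ) < (n : ℝ) + 1 := by positivity
  have hrl : 0 ≤ r l := by
    have := gapn_path_le hpath (Nat.zero_le l) hl.le
    rwa [hr0] at this
  have hrl1 : r (l + 1) ≤ b ^ 2 + 1 := by
    have := (gapn_path_le hpath hl le_rfl).trans hBP.2.2
    rwa [sq_B] at this
  obtain ⟨V, hV⟩ : ∃ V, V = r (l + 1) - r l := ⟨_, rfl⟩
  have hV0 : 0 < V := by rw [hV]; linarith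
  have hVS : V ≤ b ^ 2 + 1 := by rw [hV]; linarith
  have hd0 : 0 ≤ 1 / ((n : ℝ) + 1) := by positivity
  have hd1 : 1 / ((n : ℝ) + 1) ≤ 1 := by
    rw [div_le_one hn0]
    have : (0 : ℝ) ≤ n := Nat.cast_nonneg n
    linarith
  have hRc := Rb_cont hm hpath hl
  have hMc := Mb_cont hm hpath hl
  have hdn := h3 n d r l W hr hl (by omega)
  have hup := h2 n d r l W hr (by omega) hdl hl
  have hrd := fun t ht => Rb_deriv (t := t) hm hpath hl ht
  have hmd := fun t ht => Mb_deriv (t := t) hm hpath hl ht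
  have hm1d := fun t ht => M1b_deriv (t := t) hm hpath hl ht
  have hm2 := fun t ht => M2b_nonneg (t := t) hm hpath hr0 hl ht
  have hbd := h1 n (gm n) r hm hBP l hl
  have hf0' := Rb_zero hm hpath hl
  have hfV' := Rb_last hm hpath hl
  have hlip := fun s t hs ht hst => luni_lip (s := s) (t := t) hm hpath hl hbd hs ht hst
  rw [← hV] at hRc hMc hdn hup hrd hmd hm1d hm2 hbd hfV' hlip ht₀
  have hfc : ContinuousOn (fun t => Rb n (gm n) r l t - (r l + t - W) / b ^ 2) (Icc 0 V) :=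
    hRc.sub (by fun_prop)
  have hkc : ContinuousOn (fun t => Mb n (gm n) r l t - 1 / b ^ 2) (Icc 0 V) :=
    hMc.sub continuousOn_const
  have hfd : ∀ t ∈ Ioo 0 V, HasDerivAt (fun t => Rb n (gm n) r l t - (r l + t - W) / b ^ 2)
      (Mb n (gm n) r l t - 1 / b ^ 2) t := by
    intro t ht
    have e1 : HasDerivAt (fun t : ℝ => (r l + t - W) / b ^ 2) (1 / b ^ 2) t :=
      (((hasDerivAt_id t).const_add (r l)).sub_const W).div_const _
    exact (hrd t ht).sub e1
  have hkd : ∀ t ∈ Ioo 0 V, HasDerivAt (fun t => Mb n (gm n) r l t - 1 / b ^ 2)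
      (M1b n (gm n) r l t) t := fun t ht => (hmd t ht).sub_const _
  have hf0 : Rb n (gm n) r l 0 - (r l + 0 - W) / b ^ 2 = 0 := by
    rw [hf0', add_zero]
    have := hfix l hl.le hdl
    rw [sub_eq_zero, eq_div_iff hb2.ne']
    linarith
  have hfV : Rb n (gm n) r l V - (r l + V - W) / b ^ 2 = 0 := by
    have e : r l + V = r (l + 1) := by rw [hV]; ring
    rw [hfV', e]
    have := hfix (l + 1) hl (by omega)
    rw [sub_eq_zero, eq_div_iff hb2.ne']
    linarith
  have hV2 : 0 ≤ V ^ 2 := sq_nonneg V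
  have hint := hblk V (1 / ((n : ℝ) + 1)) (fun t => Rb n (gm n) r l t - (r l + t - W) / b ^ 2)
    (fun t => Mb n (gm n) r l t - 1 / b ^ 2) (M1b n (gm n) r l) (M2b n (gm n) r l) hV0 hVS hd0 hd1
    hfc hkc hfd hkd hm1d (fun t ht => hm2 t ⟨ht.1.le, ht.2.le⟩ (by linarith [ht.1]))
    (fun t ht => (hbd t ⟨ht.1.le, ht.2.le⟩).trans (by rw [hCd]; linarith)) hf0 hfV ?_ ?_
  · -- a zero of `k`
    obtain ⟨z, hz, hkz⟩ := exists_hasDerivAt_eq_zero hV0 hfc (by rw [hf0, hfV]) hfd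
    have hL : ∀ s ∈ Icc 0 V, ∀ t ∈ Icc 0 V,
        |(Mb n (gm n) r l t - 1 / b ^ 2) - (Mb n (gm n) r l s - 1 / b ^ 2)| ≤ C1 * |t - s| := by
      intro s hs t ht
      have e1 : (Mb n (gm n) r l t - 1 / b ^ 2) - (Mb n (gm n) r l s - 1 / b ^ 2) =
          Mb n (gm n) r l t - Mb n (gm n) r l s := by ring
      rw [e1]
      rcases le_total s t with h | h
      · rw [abs_of_nonneg (sub_nonneg.2 h)]
        exact hlip s t hs ht h
      · rw [abs_sub_comm, abs_sub_comm t s, abs_of_nonneg (sub_nonneg.2 h)]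
        exact hlip t s ht hs h
    have hsq := luni_real (k := fun t => Mb n (gm n) r l t - 1 / b ^ 2) (by linarith) hkc hL
      ⟨z, ⟨hz.1.le, hz.2.le⟩, hkz⟩ hint t₀ ht₀
    have hse : √(1 / ((n : ℝ) + 1)) ≤ e ^ 2 := by
      refine Real.sqrt_le_iff.2 ⟨by positivity, ?_⟩
      rw [div_le_iff₀ hn0, ← pow_mul]
      exact hen
    have h4 : 4 * C1 * (C' * √(1 / ((n : ℝ) + 1)) * V) ≤ 4 * C1 * C' * (b ^ 2 + 1) * e ^ 2 := by
      have h5 : C' * √(1 / ((n : ℝ) + 1)) * V ≤ C' * e ^ 2 * (b ^ 2 + 1) := by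
        refine mul_le_mul (mul_le_mul_of_nonneg_left hse (by linarith)) hVS hV0.le ?_
        positivity
      have h6 := mul_le_mul_of_nonneg_left h5 (show 0 ≤ 4 * C1 by linarith)
      refine h6.trans (le_of_eq ?_)
      ring
    have h7 := hsq.trans h4
    obtain ⟨Y, hY⟩ : ∃ Y, Y = 4 * C1 * C' * (b ^ 2 + 1) := ⟨_, rfl⟩
    rw [← hY] at h7 ⊢
    have hY0 : 0 ≤ Y := by rw [hY]; positivity
    refine abs_le_of_sq_le_sq ?_ (by positivity)
    refine h7.trans ?_
    rw [mul_pow]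
    refine mul_le_mul_of_nonneg_right ?_ (by positivity)
    nlinarith
  · intro t ht
    refine (hup t ht).trans ?_
    have e1 : t ^ 2 ≤ V ^ 2 := pow_le_pow_left₀ ht.1 ht.2 2
    have e2 : C2 / ((n : ℝ) + 1) * t ^ 2 ≤ C2 / ((n : ℝ) + 1) * V ^ 2 :=
      mul_le_mul_of_nonneg_left e1 (by positivity)
    refine e2.trans ?_
    have e3 : C2 / ((n : ℝ) + 1) * V ^ 2 = C2 * (1 / ((n : ℝ) + 1) * V ^ 2) := by ring
    rw [e3, mul_assoc C]
    refine mul_le_mul_of_nonneg_right ?_ (by positivity)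
    rw [hCd]
    linarith
  · intro t ht
    refine le_trans ?_ (hdn t ht)
    rw [neg_le_neg_iff]
    have e1 : (V - t) ^ 2 ≤ V ^ 2 := pow_le_pow_left₀ (by linarith [ht.2]) (by linarith [ht.1]) 2
    have e2 : C3 / ((n : ℝ) + 1) * (V - t) ^ 2 ≤ C3 / ((n : ℝ) + 1) * V ^ 2 :=
      mul_le_mul_of_nonneg_left e1 (by positivity)
    refine e2.trans ?_
    have e3 : C3 / ((n : ℝ) + 1) * V ^ 2 = C3 * (1 / ((n : ℝ) + 1) * V ^ 2) := by ring
    rw [e3, mul_assoc C]
    refine mul_le_mul_of_nonneg_right ?_ (by positivity)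
    rw [hCd]
    linarith

/-- In the case `r n = 0` the field is zero and the minimiser is one of the base. -/
theorem minW_zero {b W : ℝ} (hb : 0 < b) (hW : 0 ≤ W) (hW1 : W ≤ 1) {n d : ℕ} {r : ℕ → ℝ}
    (hd : 1 ≤ d) (hdn : d ≤ n) (h : IsMinW b W n d r) (hrn : r n = 0) : IsMinD b n d r := by
  have hm := gm_exponents n
  have hb2 : 0 < b ^ 2 := by positivity
  have h1 := statW hb hW hW1 hd h n le_rfl hdn
  have h2 := mul_nonneg hb2.le (spR_nonneg hm h.1.2.1 (le_refl n))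
  have hW0 : W = 0 := by linarith
  have hbb : b ^ 2 ≤ √(b ^ 2 + 1) ^ 2 := by
    rw [sq_B]
    linarith
  have e : ∀ r : ℕ → ℝ, SKW b W n r = SKr b n (gm n) r := fun r => by
    unfold SKW
    rw [hW0]
    ring
  refine ⟨⟨h.1.1, h.1.2.1, by rw [hrn]; exact hb2.le⟩, h.2.1, fun r' hr' hr0 => ?_⟩
  rw [← e, ← e]
  exact h.2.2 r' ⟨hr'.1, hr'.2.1, hr'.2.2.trans hbb⟩ hr0

/-- The last level is bounded below. -/
theorem lastW {b : ℝ} (hb : 1 < b) :
    ∃ c : ℝ, 0 < c ∧ ∀ (n d : ℕ) (r : ℕ → ℝ) (W : ℝ), 0 ≤ W → W ≤ 1 →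
      1 ≤ d → d ≤ n → IsMinW b W n d r → 1 ≤ c * (n + 1) → c ≤ r n := by
  classical
  have hb0 : 0 < b := by linarith
  have hb2 : 0 < b ^ 2 := by positivity
  have hb21 : 1 < b ^ 2 := by nlinarith
  obtain ⟨C1, hC1, h1⟩ := unifW hb0
  obtain ⟨C2, hC2, h2⟩ := M1b_bd (√(b ^ 2 + 1))
  obtain ⟨K, hK, h3⟩ := lst_zero hb
  have H := sumHyp hb
  obtain ⟨a, ha⟩ : ∃ a : ℝ, a = 1 - 1 / b ^ 2 := ⟨_, rfl⟩
  have hq0 : 0 < 1 / b ^ 2 := by positivity
  have hq1 : 1 / b ^ 2 < 1 := by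
    rw [div_lt_one hb2]
    exact hb21
  have ha0 : 0 < a := by rw [ha]; linarith
  obtain ⟨e, he⟩ : ∃ e : ℝ, e = a / (2 * C1) := ⟨_, rfl⟩
  have he0 : 0 < e := by rw [he]; exact div_pos ha0 (by linarith)
  have hCe : C1 * e = a / 2 := by
    rw [he]
    field_simp
  obtain ⟨c, hc⟩ : ∃ c : ℝ, c = min (min (b ^ 2 * a / 4) (a / (C2 + 2 * (1 / b ^ 2))))
    (min (e ^ 4) (a / (2 * (K + 1)))) := ⟨_, rfl⟩
  have c1 : c ≤ b ^ 2 * a / 4 := by
    rw [hc]
    exact (min_le_left _ _).trans (min_le_left _ _)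
  have c2 : c ≤ a / (C2 + 2 * (1 / b ^ 2)) := by
    rw [hc]
    exact (min_le_left _ _).trans (min_le_right _ _)
  have c3 : c ≤ e ^ 4 := by
    rw [hc]
    exact (min_le_right _ _).trans (min_le_left _ _)
  have c4 : c ≤ a / (2 * (K + 1)) := by
    rw [hc]
    exact (min_le_right _ _).trans (min_le_right _ _)
  have hc0 : 0 < c := by
    rw [hc]
    refine lt_min (lt_min ?_ ?_) (lt_min ?_ ?_)
    · positivity
    · exact div_pos ha0 (by linarith)
    · positivity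
    · exact div_pos ha0 (by linarith)
  refine ⟨c, hc0, fun n d r W hW0 hW1 hd hdn hr hn => ?_⟩
  have hm := gm_exponents n
  have hBP := hr.1
  have hpath := hBP.2.1
  have hr0 := hBP.1
  have hn0 : (0 : ℝ) < (n : ℝ) + 1 := by positivity
  have hbd := h2 n (gm n) r hm hBP
  have hfix := statW hb0 hW0 hW1 hd hr
  have hfn := hfix n le_rfl hdn
  have hlast := Ml_last (n := n) (m := gm n) (r := r) hm hpath
  have hspn : spR n (gm n) r n = (r n - W) * (1 / b ^ 2) := by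
    rw [mul_one_div, eq_div_iff hb2.ne', hfn]
    ring
  have hrn0 : 0 ≤ r n := by
    have := gapn_path_le hpath (Nat.zero_le n) le_rfl
    rwa [hr0] at this
  rcases hrn0.eq_or_lt with hz | hpos
  · -- the case `r n = 0`
    exfalso
    have h4 := h3 n d r hd hdn (minW_zero hb0 hW0 hW1 hd hdn hr hz.symm) hz.symm
    have h5 : 1 / ((n : ℝ) + 1) ≤ c := by
      rw [div_le_iff₀ hn0]
      exact hn
    have h6 : K * (1 / ((n : ℝ) + 1)) ≤ (K + 1) * c :=
      mul_le_mul (by linarith) h5 (by positivity) (by linarith)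
    have h7 : (K + 1) * c ≤ a / 2 := by
      have h8 := mul_le_mul_of_nonneg_left c4 (show 0 ≤ K + 1 by linarith)
      have h9 : (K + 1) * (a / (2 * (K + 1))) = a / 2 := by
        have : K + 1 ≠ 0 := by linarith
        field_simp
      linarith
    linarith
  -- the first level with the value `r n`
  have hex : ∃ l, r l = r n := ⟨n, rfl⟩
  obtain ⟨p, hp⟩ : ∃ p, p = Nat.find hex := ⟨_, rfl⟩
  have hrp : r p = r n := by rw [hp]; exact Nat.find_spec hex
  have hpn : p ≤ n := by rw [hp]; exact Nat.find_min' hex rfl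
  have hlow : ∀ l < p, r l ≠ r n := fun l hl => Nat.find_min hex (by rw [← hp]; exact hl)
  have hdp : d ≤ p := by
    by_contra hcon
    have := hr.2.1 p (by omega)
    rw [hrp] at this
    linarith
  obtain ⟨l, hl⟩ : ∃ l, p = l + 1 := ⟨p - 1, by omega⟩
  have hln : l < n := by omega
  have hstep := sum_steps (M := Ml n (gm n) r) (fun i hi => sum_step H hm hpath hi (hbd i hi)) hpn
  rw [hrp, sub_self, mul_zero] at hstep
  have hrl : r l < r (l + 1) := by
    refine lt_of_le_of_ne (hpath.2 l hln) ?_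
    rw [← hl, hrp]
    exact hlow l (by omega)
  have hV : 0 < r (l + 1) - r l := by linarith
  have hMV : Mb n (gm n) r l (r (l + 1) - r l) = Ml n (gm n) r p := by
    rw [hl]
    exact Mb_last hm hpath hln
  rcases hdp.eq_or_lt with hd1 | hd1
  · -- `r` is constant above `d`
    have hrl0 : r l = 0 := hr.2.1 l (by omega)
    have e1 : Rb n (gm n) r l 0 = 0 := by
      rw [Rb_zero hm hpath hln]
      exact spR_zero hm hpath hr0 hln.le hrl0
    have e2 : Rb n (gm n) r l (r (l + 1) - r l) = (r (l + 1) - W) * (1 / b ^ 2) := by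
      rw [Rb_last hm hpath hln]
      have h4 := hfix (l + 1) hln (by omega)
      rw [mul_one_div, eq_div_iff hb2.ne']
      linarith
    obtain ⟨ξ, hξ, hξe⟩ := exists_hasDerivAt_eq_slope (Rb n (gm n) r l) (Mb n (gm n) r l) hV
      (Rb_cont hm hpath hln) (fun x hx => Rb_deriv hm hpath hln hx)
    rw [e1, e2, sub_zero, sub_zero] at hξe
    have hξ1 : Mb n (gm n) r l ξ ≤ 1 / b ^ 2 := by
      rw [hξe, div_le_iff₀ hV, mul_comm]
      refine mul_le_mul_of_nonneg_left ?_ (by positivity)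
      rw [hrl0]
      linarith
    have h4 := sum_lip H hm hpath hln (hbd l hln) ⟨hξ.1.le, hξ.2.le⟩ (right_mem_Icc.2 hV.le)
      hξ.2.le
    rw [hMV] at h4
    have h5 := (abs_le.1 h4).2
    have h6 : r (l + 1) - r l = r n := by rw [hrl0, sub_zero, ← hl, hrp]
    rw [h6] at h5
    have h7 : C2 * (r n - ξ) ≤ C2 * r n := mul_le_mul_of_nonneg_left (by linarith [hξ.1])
      (by linarith)
    rw [hspn] at hlast
    have h9 : (r n - W) * (1 / b ^ 2) ≤ r n * (1 / b ^ 2) :=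
      mul_le_mul_of_nonneg_right (by linarith) (by positivity)
    refine c2.trans ?_
    rw [div_le_iff₀ (by linarith)]
    have h8 : r n * (C2 + 2 * (1 / b ^ 2)) = C2 * r n + 2 * (r n * (1 / b ^ 2)) := by ring
    rw [h8, ha]
    linarith
  · -- a block above `d`
    have h4 := h1 n d r l e W hW0 hW1 hd hr (by omega) hln hrl he0 (hn.trans
      (mul_le_mul_of_nonneg_right c3 hn0.le)) _ (right_mem_Icc.2 hV.le)
    rw [hMV, hCe] at h4
    have h5 := (abs_le.1 h4).2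
    have h6 : a / 4 ≤ spR n (gm n) r n := by
      rw [ha] at h5 ⊢
      linarith
    rw [hfn]
    refine c1.trans ?_
    have h7 := mul_le_mul_of_nonneg_left h6 hb2.le
    linarith

end Vale.Agent.P146.H22.Par
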