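import Mathlib
import Vale.Agent.P146.H22.ParC

set_option linter.all false

/-!
# P146, H22: the Parisi side with a field, part D

The first block of the minimiser with a field `W ≤ ε x³` is long, and the response at the level `0`
exceeds `1 / b` by a multiple of `x²`.
-/

open MeasureTheory ProbabilityTheory Filter Topology Set

namespace Vale.Agent.P146.H22.Par

open Vale.Agent.P157.Par
open Vale.Agent.P146.Gap
open Vale.Agent.P146.Pw2
open Vale.Agent.P367.Cl
open Vale.Agent.P146.Lb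

theorem lenW {b : ℝ} (hb : 1 < b) : ∃ c C : ℝ, 0 < c ∧ 1 ≤ C ∧ ∀ (n d : ℕ) (r : ℕ → ℝ) (W : ℝ),
    0 ≤ W → W ≤ 1 → 1 ≤ d → d ≤ n → IsMinW b W n d r → gm n d ≤ c →
      C ≤ gm n d ^ 8 * (n + 1) → c * gm n d ≤ r d := by
  obtain ⟨Cu, hCu, hun⟩ := unifW (show 0 < b by linarith)
  obtain ⟨cl, hcl, hlast⟩ := lastW hb
  obtain ⟨cd, K, hcd, hK, hdec⟩ := decD (√(b ^ 2 + 1))
  set κ := cd / (2 * K) with hκ
  have hκ0 : 0 < κ := by positivity
  set A := 16 * Cu / (cd * κ) with hA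
  have hA0 : 0 < A := by positivity
  refine ⟨min (min (κ / 2) (cl / (2 * κ))) 1, max (max (A ^ 4) (1 / cl)) 1, by positivity,
    le_max_right _ _, fun n d r W hW0 hW1 hd1 hdn hmin hx hC => ?_⟩
  set x := gm n d with hxdef
  have hx0 : 0 < x := grid_gm_pos hd1
  have hx1 : x ≤ 1 := hx.trans (min_le_right _ _)
  have hxl : x ≤ cl / (2 * κ) := hx.trans ((min_le_left _ _).trans (min_le_right _ _))
  have hr := hmin.1
  have hm := gm_exponents n
  have hn1 : (0 : ℝ) < n + 1 := by positivity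
  obtain ⟨e, he, hen, hAe⟩ := len_e (n := n) hA0
    ((le_max_left _ _).trans ((le_max_left _ _).trans hC))
  -- r n is not small
  have hrn : cl ≤ r n := by
    refine hlast n d r W hW0 hW1 hd1 hdn hmin ?_
    have h1 : 1 / cl ≤ x ^ 8 * (n + 1) := (le_max_right _ _).trans ((le_max_left _ _).trans hC)
    have h2 : x ^ 8 * ((n : ℝ) + 1) ≤ 1 * (n + 1) :=
      mul_le_mul_of_nonneg_right (pow_le_one₀ hx0.le hx1) hn1.le
    rw [div_le_iff₀ hcl] at h1
    nlinarith
  by_contra hcon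
  push Not at hcon
  have hrd : r d < κ / 2 * x := by
    refine hcon.trans_le (mul_le_mul_of_nonneg_right ?_ hx0.le)
    exact (min_le_left _ _).trans (min_le_left _ _)
  have hκx : 0 < κ * x := by positivity
  have hWn : κ * x < r n := by
    have h1 : κ * x ≤ κ * (cl / (2 * κ)) := mul_le_mul_of_nonneg_left hxl hκ0.le
    have h2 : κ * (cl / (2 * κ)) = cl / 2 := by field_simp
    linarith
  -- the first level after which the path leaves r d
  have hex : ∃ l, d ≤ l ∧ r d < r (l + 1) := by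
    refine ⟨n - 1, ?_, ?_⟩
    · rcases Nat.lt_or_ge d n with h | h
      · omega
      · have : d = n := by omega
        rw [this] at hrd
        linarith
    · have e : n - 1 + 1 = n := by omega
      rw [e]
      linarith
  classical
  set l1 := Nat.find hex with hl1
  obtain ⟨hdl1, hl1r⟩ := Nat.find_spec hex
  have hl1n : l1 < n := by
    have h1 : l1 ≤ n - 1 := by
      refine Nat.find_min' hex ⟨?_, ?_⟩
      · rcases Nat.lt_or_ge d n with h | h
        · omega
        · have : d = n := by omega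
          rw [this] at hrd
          linarith
      · have e : n - 1 + 1 = n := by omega
        rw [e]
        linarith
    omega
  have hr1 : r l1 = r d := by
    refine le_antisymm ?_ (len_mono hr hdl1 hl1n.le)
    by_contra h
    push Not at h
    have hne : l1 ≠ d := fun h' => by rw [h'] at h; exact lt_irrefl _ h
    have h1 := Nat.find_min hex (m := l1 - 1) (by omega)
    apply h1
    refine ⟨by omega, ?_⟩
    have e : l1 - 1 + 1 = l1 := by omega
    rw [e]
    exact h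
  -- the last level below the time κ x
  set l2 := Nat.findGreatest (fun l => r l ≤ κ * x) n with hl2
  have hl2W : r l2 ≤ κ * x := by
    have := Nat.findGreatest_spec (P := fun l => r l ≤ κ * x) (m := l1) (n := n) hl1n.le
      (by rw [hr1]; linarith)
    exact this
  have hl12 : l1 ≤ l2 := Nat.le_findGreatest hl1n.le (by rw [hr1]; linarith)
  have hl2n : l2 < n := by
    rcases (Nat.findGreatest_le (P := fun l => r l ≤ κ * x) n).lt_or_eq with h | h
    · exact h
    · rw [← hl2] at h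
      rw [h] at hl2W
      linarith
  have hl2r : κ * x < r (l2 + 1) := by
    by_contra h
    push Not at h
    have := Nat.le_findGreatest (P := fun l => r l ≤ κ * x) (m := l2 + 1) (n := n) hl2n h
    omega
  -- induction
  have hind : ∀ i, l1 + i ≤ l2 → Ml n (gm n) r (l1 + i) ≤
      Ml n (gm n) r l1 - cd / 2 * x * (r (l1 + i) - r l1) := by
    intro i
    induction i with
    | zero => intro _; simp
    | succ i ih =>
      intro hi
      have h1 := ih (by omega)
      have hli : l1 + i < n := by omega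
      have h2 : r (l1 + i) ≤ r (l1 + i + 1) := len_mono hr (Nat.le_succ _) (by omega)
      have h3 : r (l1 + i + 1) ≤ r l2 := len_mono hr hi hl2n.le
      have h4 := len_dec hcd hK hdec hr hx1 hli (by omega)
        (T := r (l1 + i + 1) - r (l1 + i)) ⟨by linarith, le_rfl⟩ (by
          rw [← hκ]
          linarith)
      rw [Mb_last hm hr.2.1 hli, Mb_zero hm hr.2.1 hli] at h4
      have e : l1 + (i + 1) = l1 + i + 1 := rfl
      rw [e]
      linarith
  have h5 := hind (l2 - l1) (by omega)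
  rw [Nat.add_sub_cancel' hl12] at h5
  -- inside the block l2
  have hT : κ * x - r l2 ∈ Icc 0 (r (l2 + 1) - r l2) := ⟨by linarith, by linarith⟩
  have h6 := len_dec hcd hK hdec hr hx1 hl2n (by omega) hT (by rw [← hκ]; linarith)
  rw [Mb_zero hm hr.2.1 hl2n] at h6
  have h7 := hun n d r l2 e W hW0 hW1 hd1 hmin (by omega) hl2n (by linarith) he hen _ hT
  have h8 := hun n d r l1 e W hW0 hW1 hd1 hmin (by omega) hl1n (by rw [hr1]; exact hl1r) he hen 0
    ⟨le_rfl, by rw [hr1]; linarith⟩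
  rw [Mb_zero hm hr.2.1 hl1n] at h8
  have h9 := (abs_le.1 h7).1
  have h10 := (abs_le.1 h8).2
  rw [hr1] at h5
  have h11 : cd / 2 * x * (κ * x - r d) ≤ 2 * (Cu * e) := by nlinarith
  have h12 : cd / 2 * x * (κ / 2 * x) ≤ cd / 2 * x * (κ * x - r d) :=
    mul_le_mul_of_nonneg_left (by linarith) (by positivity)
  have h13 : A * e * (cd * κ) = 16 * (Cu * e) := by
    rw [hA]
    field_simp
  have h14 : A * e * (cd * κ) ≤ x ^ 2 * (cd * κ) := mul_le_mul_of_nonneg_right hAe (by positivity)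
  have h15 : cd / 2 * x * (κ / 2 * x) = x ^ 2 * (cd * κ) / 4 := by ring
  have h16 : 0 < Cu * e := by positivity
  nlinarith

/-- Step 4: the derivative at `0` of the excess is at least `α x²`. -/
theorem lreal_firstW {V x c κ h w0 : ℝ} {f k k1 k2 : ℝ → ℝ} (hx : 0 < x) (hc : 0 < c) (hκ : 0 < κ)
    (hκV : κ * x ≤ V) (hf : ContinuousOn f (Icc 0 V)) (hk : ContinuousOn k (Icc 0 V))
    (h1 : ∀ t ∈ Ioo 0 V, HasDerivAt f (k t) t) (h2 : ∀ t ∈ Ioo 0 V, HasDerivAt k (k1 t) t)
    (h3 : ∀ t ∈ Ioo 0 V, HasDerivAt k1 (k2 t) t) (h4 : ∀ t ∈ Ioo 0 V, 0 ≤ k2 t)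
    (h5 : ∀ t ∈ Ioo 0 V, t ≤ κ * x → k1 t ≤ -(c * x)) (hf0 : f 0 = w0)
    (hw1 : w0 ≤ c * κ ^ 2 * x ^ 3 / 32) (hfV : f V = 0)
    (h6 : ∀ t ∈ Icc 0 V, -(h * (V - t) ^ 2) ≤ ∫ s in t..V, f s) (hh : 0 ≤ h)
    (h7 : h * V ^ 2 < c * κ ^ 3 * x ^ 4 / 64) : c * κ / 8 * x ^ 2 ≤ k 0 := by
  by_contra hcon
  push Not at hcon
  have hκx : 0 < κ * x := by positivity
  have hV : 0 < V := hκx.trans_le hκV
  have hsub : Icc 0 (κ * x) ⊆ Icc 0 V := Icc_subset_Icc_right hκV
  -- k below a line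
  have hkl : ∀ t ∈ Icc 0 (κ * x), k t ≤ c * κ / 8 * x ^ 2 - c * x * t := fun t ht => by
    have := lreal_le (f := k) (f' := k1) (a := -(c * x)) ht.1
      (hk.mono (Icc_subset_Icc_right (ht.2.trans hκV)))
      (fun s hs => h2 s ⟨hs.1, hs.2.trans_le (ht.2.trans hκV)⟩)
      (fun s hs => h5 s ⟨hs.1, hs.2.trans_le (ht.2.trans hκV)⟩ (hs.2.le.trans ht.2))
    linarith only [this, hcon]
  have hfl : ∀ t ∈ Icc 0 (κ * x),
      f t ≤ w0 + (c * κ / 8 * x ^ 2 * t - c * x * t ^ 2 / 2) := fun t ht => by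
    have := lreal_quad (f := fun t => f t - f 0) (k := k)
      ((hf.mono hsub).sub continuousOn_const)
      (fun s hs => (h1 s ⟨hs.1, hs.2.trans_le hκV⟩).sub_const _) (by simp)
      (fun s hs => hkl s ⟨hs.1.le, hs.2.le⟩) ht
    simp only [hf0] at this
    linarith only [this]
  -- convexity
  have hconv : ConvexOn ℝ (Icc 0 V) k := by
    refine convexOn_of_deriv2_nonneg (convex_Icc 0 V) hk ?_ ?_ ?_
    · rw [interior_Icc]
      exact fun t ht => (h2 t ht).differentiableAt.differentiableWithinAt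
    · rw [interior_Icc]
      intro t ht
      have e : deriv k =ᶠ[nhds t] k1 := by
        filter_upwards [isOpen_Ioo.mem_nhds ht] with s hs
        exact (h2 s hs).deriv
      exact ((h3 t ht).differentiableAt.congr_of_eventuallyEq e).differentiableWithinAt
    · rw [interior_Icc]
      intro t ht
      have e : deriv k =ᶠ[nhds t] k1 := by
        filter_upwards [isOpen_Ioo.mem_nhds ht] with s hs
        exact (h2 s hs).deriv
      show 0 ≤ deriv (deriv k) t
      rw [e.deriv_eq, (h3 t ht).deriv]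
      exact h4 t ht
  -- f is negative at κ x, hence nonpositive above
  have hft0 : f (κ * x) < 0 := by
    have := hfl (κ * x) ⟨hκx.le, le_rfl⟩
    have e : c * κ / 8 * x ^ 2 * (κ * x) - c * x * (κ * x) ^ 2 / 2 =
        -(3 / 8 * (c * κ ^ 2 * x ^ 3)) := by ring
    rw [e] at this
    have h8 : 0 < c * κ ^ 2 * x ^ 3 := by positivity
    linarith
  have hkt0 : k (κ * x) < 0 := by
    have := hkl (κ * x) ⟨hκx.le, le_rfl⟩
    have e : c * κ / 8 * x ^ 2 - c * x * (κ * x) = -(7 / 8 * (c * κ * x ^ 2)) := by ring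
    rw [e] at this
    have : 0 < c * κ * x ^ 2 := by positivity
    linarith
  have hneg : ∀ t ∈ Icc (κ * x) V, f t ≤ 0 := by
    intro t2 ht2
    by_contra hpos
    push Not at hpos
    have ht2' : κ * x < t2 := by
      rcases ht2.1.lt_or_eq with h' | h'
      · exact h'
      · rw [← h'] at hpos
        linarith only [hpos, hft0]
    have ht2V : t2 < V := by
      rcases ht2.2.lt_or_eq with h' | h'
      · exact h'
      · rw [h', hfV] at hpos
        exact absurd hpos (lt_irrefl _)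
    obtain ⟨t3, ht3, e3⟩ := exists_hasDerivAt_eq_slope f k ht2'
      (hf.mono (Icc_subset_Icc hκx.le ht2.2))
      (fun s hs => h1 s ⟨hκx.trans hs.1, hs.2.trans_le ht2.2⟩)
    obtain ⟨t4, ht4, e4⟩ := exists_hasDerivAt_eq_slope f k ht2V
      (hf.mono (Icc_subset_Icc (hκx.le.trans ht2.1) le_rfl))
      (fun s hs => h1 s ⟨(hκx.trans ht2').trans hs.1, hs.2⟩)
    have k3 : 0 < k t3 := by
      rw [e3]
      exact div_pos (by linarith only [hpos, hft0]) (by linarith)
    have k4 : k t4 < 0 := by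
      rw [e4, hfV]
      exact div_neg_of_neg_of_pos (by linarith only [hpos]) (by linarith only [ht2V])
    have hmem : t3 ∈ segment ℝ (κ * x) t4 := by
      rw [segment_eq_Icc (by linarith only [ht4.1, ht3.2, ht3.1])]
      exact ⟨ht3.1.le, by linarith only [ht4.1, ht3.2]⟩
    have := hconv.le_on_segment (x := κ * x) (y := t4) ⟨hκx.le, hκV⟩
      ⟨by linarith only [ht4.1, ht2', hκx], ht4.2.le⟩ hmem
    have h9 : max (k (κ * x)) (k t4) < 0 := max_lt hkt0 k4
    linarith only [h9, this, k3]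
  -- the integral
  have hm : κ * x / 2 ∈ Icc 0 V := ⟨by positivity, by linarith only [hV, hκV]⟩
  have i1 := h6 _ hm
  have hint : IntervalIntegrable f volume (κ * x / 2) (κ * x) :=
    ContinuousOn.intervalIntegrable (by
      rw [uIcc_of_le (by linarith only [hκx])]
      exact hf.mono (Icc_subset_Icc hm.1 hκV))
  have hint2 : IntervalIntegrable f volume (κ * x) V :=
    ContinuousOn.intervalIntegrable (by
      rw [uIcc_of_le hκV]
      exact hf.mono (Icc_subset_Icc hκx.le le_rfl))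
  rw [← intervalIntegral.integral_add_adjacent_intervals hint hint2] at i1
  have i2 : ∫ s in (κ * x)..V, f s ≤ 0 := by
    have := intervalIntegral.integral_mono_on hκV hint2 intervalIntegrable_const hneg
    simpa using this
  have i3 : ∫ s in (κ * x / 2)..(κ * x), f s ≤ (κ * x / 2) * -(c * κ ^ 2 * x ^ 3 / 32) := by
    have h10 : ∀ t ∈ Icc (κ * x / 2) (κ * x), f t ≤ -(c * κ ^ 2 * x ^ 3 / 32) := fun t ht => by
      have e1 := hfl t ⟨hm.1.trans ht.1, ht.2⟩
      have e2 : c * κ / 8 * x ^ 2 * t - c * x * t ^ 2 / 2 =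
          c * x * t * (κ * x / 8 - t / 2) := by ring
      have e3 : κ * x / 8 - t / 2 ≤ -(κ * x / 8) := by linarith only [ht.1]
      have e4 : 0 ≤ c * x * t := mul_nonneg (by positivity) (hm.1.trans ht.1)
      have e5 : c * x * t * (κ * x / 8 - t / 2) ≤ c * x * t * -(κ * x / 8) :=
        mul_le_mul_of_nonneg_left e3 e4
      have e6 : c * x * (κ * x / 2) * (κ * x / 8) ≤ c * x * t * (κ * x / 8) :=
        mul_le_mul_of_nonneg_right (mul_le_mul_of_nonneg_left ht.1 (by positivity)) (by positivity)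
      have e7 : c * x * (κ * x / 2) * (κ * x / 8) = c * κ ^ 2 * x ^ 3 / 16 := by ring
      linarith only [e6, e5, e1, e2, e7, hw1]
    have := intervalIntegral.integral_mono_on (by linarith only [hκx] : κ * x / 2 ≤ κ * x) hint
      intervalIntegrable_const h10
    rw [intervalIntegral.integral_const, smul_eq_mul] at this
    refine this.trans (le_of_eq ?_)
    ring
  have i4 : h * (V - κ * x / 2) ^ 2 ≤ h * V ^ 2 := by
    refine mul_le_mul_of_nonneg_left ?_ hh
    refine pow_le_pow_left₀ ?_ ?_ 2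
    · linarith only [hV, hκV]
    · linarith only [hκx]
  have i5 : (κ * x / 2) * -(c * κ ^ 2 * x ^ 3 / 32) = -(c * κ ^ 3 * x ^ 4 / 64) := by ring
  linarith only [i4, i3, i2, i1, h7]

/-- The response at the level `d` of the minimiser: it exceeds `1 / b²` by `c x²`. -/
theorem firstW {b : ℝ} (hb : 1 < b) : ∃ c ε C : ℝ, 0 < c ∧ 0 < ε ∧ 1 ≤ C ∧
    ∀ (n d : ℕ) (r : ℕ → ℝ) (W : ℝ), IsMinW b W n (d + 1) r → d < n → gm n (d + 1) ≤ c →
      C ≤ gm n (d + 1) ^ 8 * (n + 1) → 0 ≤ W → W ≤ ε * gm n (d + 1) ^ 3 →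
      c * gm n (d + 1) ^ 2 ≤ Ml n (gm n) r d - 1 / b ^ 2 := by
  have hb0 : 0 < b := by linarith
  obtain ⟨c₁, C₁, hc₁, hC₁, hlen⟩ := lenW hb
  obtain ⟨Cv, hCv, hvar⟩ := var_downW hb0
  obtain ⟨cd, K, hcd, hK, hdec⟩ := decD (√(b ^ 2 + 1))
  have hb2 : 0 < b ^ 2 := by positivity
  set κ := min c₁ (cd / (2 * K)) with hκ
  have hκ0 : 0 < κ := by positivity
  set c₂ := cd / 2 with hc₂
  have hc₂0 : 0 < c₂ := by positivity
  set α := c₂ * κ / 8 with hα
  have hα0 : 0 < α := by positivity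
  set D := 128 * Cv * (b ^ 2 + 1) ^ 2 / (c₂ * κ ^ 3) with hD
  have hD0 : 0 < D := by positivity
  set ε := min 1 (b ^ 2 * (c₂ * κ ^ 2 / 32)) with hε
  have hε0 : 0 < ε := by positivity
  refine ⟨min (min c₁ α) 1, ε, max C₁ D, by positivity, hε0,
    le_max_of_le_left hC₁, fun n d r W hmin hdn hx hC hW0 hWε => ?_⟩
  set x := gm n (d + 1) with hxdef
  have hx0 : 0 < x := grid_gm_pos (by omega)
  have hx1 : x ≤ 1 := hx.trans (min_le_right _ _)
  have hr := hmin.1
  have hm := gm_exponents n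
  have hn1 : (0 : ℝ) < n + 1 := by positivity
  have hx3 : x ^ 3 ≤ 1 := pow_le_one₀ hx0.le hx1
  have hW1 : W ≤ 1 := by
    have h1 : ε ≤ 1 := min_le_left _ _
    have h2 : ε * x ^ 3 ≤ 1 * 1 := mul_le_mul h1 hx3 (by positivity) (by norm_num)
    linarith
  have hw0 : W / b ^ 2 ≤ c₂ * κ ^ 2 * x ^ 3 / 32 := by
    have h1 : ε ≤ b ^ 2 * (c₂ * κ ^ 2 / 32) := min_le_right _ _
    have h2 : ε * x ^ 3 ≤ b ^ 2 * (c₂ * κ ^ 2 / 32) * x ^ 3 :=
      mul_le_mul_of_nonneg_right h1 (by positivity)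
    rw [div_le_iff₀ hb2]
    linarith
  have hV := hlen n (d + 1) r W hW0 hW1 (by omega) hdn hmin (hx.trans ((min_le_left _ _).trans
    (min_le_left _ _))) ((le_max_left _ _).trans hC)
  have hrd : r d = 0 := hmin.2.1 d (Nat.lt_succ_self d)
  set V := r (d + 1) with hVdef
  have hκV : κ * x ≤ V := (mul_le_mul_of_nonneg_right (min_le_left _ _) hx0.le).trans hV
  have hVb : V ≤ b ^ 2 + 1 := by
    have := (len_mono hr hdn le_rfl).trans hr.2.2
    rwa [sq_B] at this
  have hV0 : 0 < V := (by positivity : 0 < κ * x).trans_le hκV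
  have eV : r (d + 1) - r d = V := by rw [hrd, sub_zero]
  -- data
  have hfc : ContinuousOn (fun s => Rb n (gm n) r d s - (s - W) / b ^ 2) (Icc 0 V) := by
    have := Rb_cont hm hr.2.1 hdn
    rw [eV] at this
    exact this.sub (by fun_prop)
  have hkc : ContinuousOn (fun s => Mb n (gm n) r d s - 1 / b ^ 2) (Icc 0 V) := by
    have := Mb_cont hm hr.2.1 hdn
    rw [eV] at this
    exact this.sub (by fun_prop)
  have h1 : ∀ t ∈ Ioo 0 V, HasDerivAt (fun s => Rb n (gm n) r d s - (s - W) / b ^ 2)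
      (Mb n (gm n) r d t - 1 / b ^ 2) t := fun t ht =>
    (Rb_deriv hm hr.2.1 hdn (by rw [eV]; exact ht)).sub (((hasDerivAt_id t).sub_const W).div_const _)
  have h2 : ∀ t ∈ Ioo 0 V, HasDerivAt (fun s => Mb n (gm n) r d s - 1 / b ^ 2)
      (M1b n (gm n) r d t) t := fun t ht =>
    (Mb_deriv hm hr.2.1 hdn (by rw [eV]; exact ht)).sub_const _
  have h3 : ∀ t ∈ Ioo 0 V, HasDerivAt (M1b n (gm n) r d) (M2b n (gm n) r d t) t := fun t ht =>
    M1b_deriv hm hr.2.1 hdn (by rw [eV]; exact ht)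
  have h4 : ∀ t ∈ Ioo 0 V, 0 ≤ M2b n (gm n) r d t := fun t ht =>
    M2b_nonneg hm hr.2.1 hr.1 hdn (by rw [eV]; exact ⟨ht.1.le, ht.2.le⟩)
      (by rw [hrd]; linarith [ht.1])
  have h5 : ∀ t ∈ Ioo 0 V, t ≤ κ * x → M1b n (gm n) r d t ≤ -(c₂ * x) := fun t ht htx => by
    have e1 : κ * x ≤ cd / (2 * K) * x := mul_le_mul_of_nonneg_right (min_le_right _ _) hx0.le
    have e2 : cd / (2 * K) * x ≤ cd := by
      have e3 : cd / (2 * K) ≤ cd := by
        rw [div_le_iff₀ (by positivity)]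
        nlinarith
      calc cd / (2 * K) * x ≤ cd * 1 := mul_le_mul e3 hx1 hx0.le hcd.le
        _ = cd := mul_one cd
    have e4 := hdec n r hr d hdn t (by rw [eV]; exact ⟨ht.1.le, ht.2.le⟩)
      (by rw [hrd]; linarith)
    rw [hrd, zero_add, ← hxdef] at e4
    have e5 : K * t ≤ K * (cd / (2 * K) * x) :=
      mul_le_mul_of_nonneg_left (by linarith) (by linarith)
    have e6 : K * (cd / (2 * K) * x) = cd / 2 * x := by field_simp
    rw [hc₂]
    linarith
  have hf0 : Rb n (gm n) r d 0 - (0 - W) / b ^ 2 = W / b ^ 2 := by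
    rw [Rb_zero hm hr.2.1 hdn, spR_zero hm hr.2.1 hr.1 hdn.le hrd]
    ring
  have hst := statW hb0 hW0 hW1 (by omega) hmin (d + 1) hdn le_rfl
  have hfV : Rb n (gm n) r d V - (V - W) / b ^ 2 = 0 := by
    have e1 := Rb_last hm hr.2.1 hdn
    rw [eV] at e1
    rw [e1, hVdef, sub_eq_zero, eq_div_iff hb2.ne']
    linarith
  have h6 : ∀ t ∈ Icc 0 V, -(Cv / (n + 1) * (V - t) ^ 2) ≤
      ∫ s in t..V, (Rb n (gm n) r d s - (s - W) / b ^ 2) := fun t ht => by
    have := hvar n (d + 1) r d W hmin hdn le_rfl t (by rw [eV]; exact ht)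
    rw [eV] at this
    simpa only [hrd, zero_add] using this
  have h7 : Cv / (n + 1) * V ^ 2 < c₂ * κ ^ 3 * x ^ 4 / 64 := by
    have e1 : D ≤ x ^ 8 * (n + 1) := (le_max_right _ _).trans hC
    have e2 : x ^ 8 * ((n : ℝ) + 1) ≤ x ^ 4 * (n + 1) := by
      refine mul_le_mul_of_nonneg_right ?_ hn1.le
      exact pow_le_pow_of_le_one hx0.le hx1 (by norm_num)
    have e3 : D ≤ x ^ 4 * (n + 1) := e1.trans e2
    rw [hD, div_le_iff₀ (by positivity)] at e3
    have e4 : V ^ 2 ≤ (b ^ 2 + 1) ^ 2 := pow_le_pow_left₀ hV0.le hVb 2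
    have e5 : Cv / (n + 1) * V ^ 2 ≤ Cv / (n + 1) * (b ^ 2 + 1) ^ 2 :=
      mul_le_mul_of_nonneg_left e4 (by positivity)
    refine e5.trans_lt ?_
    rw [div_mul_eq_mul_div, div_lt_iff₀ hn1]
    have e6 : 0 < Cv * (b ^ 2 + 1) ^ 2 := by positivity
    have e7 : x ^ 4 * (n + 1) * (c₂ * κ ^ 3) = 64 * (c₂ * κ ^ 3 * x ^ 4 / 64 * (n + 1)) := by ring
    rw [e7] at e3
    linarith
  have hk0 := lreal_firstW hx0 hc₂0 hκ0 hκV hfc hkc h1 h2 h3 h4 h5 hf0 hw0 hfV h6 (by positivity) h7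
  rw [Mb_zero hm hr.2.1 hdn] at hk0
  refine le_trans (mul_le_mul_of_nonneg_right ?_ (by positivity)) hk0
  exact (min_le_left _ _).trans (min_le_right _ _)

/-- Below the level `d` nothing happens. -/
theorem Ml_const {n d : ℕ} {m r : ℕ → ℝ} (hm : Exponents n m) (hr : Path n r) (hdn : d ≤ n)
    (h : ∀ l ≤ d, r l = 0) : Ml n m r d = Ml n m r 0 := by
  induction d with
  | zero => rfl
  | succ d ih =>
    rw [← ih (by omega) (fun l hl => h l (by omega)), ← Mb_zero hm hr (show d < n by omega),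
      ← Mb_last hm hr (show d < n by omega), h (d + 1) le_rfl, h d (by omega), sub_zero]

/-- **The response of the minimiser with a small field.** -/
theorem par_main {b : ℝ} (hb : 1 < b) : ∃ c ε C : ℝ, 0 < c ∧ 0 < ε ∧ ε ≤ 1 ∧ 1 ≤ C ∧
    ∀ (n d : ℕ) (r : ℕ → ℝ) (W : ℝ), 1 ≤ d → d ≤ n → IsMinW b W n d r → gm n d ≤ c →
      C ≤ gm n d ^ 8 * (n + 1) → 0 ≤ W → W ≤ ε * gm n d ^ 3 →
      1 + c * gm n d ^ 2 ≤
        b * (1 - ∑ l ∈ Finset.range (n + 1), (gm n (l + 1) - gm n l) * spR n (gm n) r l) := by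
  have hb0 : 0 < b := by linarith
  obtain ⟨c, ε, C, hc, hε, hC, h1⟩ := firstW hb
  refine ⟨min (c / 3) 1, min ε 1, C, by positivity, by positivity, min_le_right _ _, hC,
    fun n d r W hd hdn hmin hx hCx hW0 hWε => ?_⟩
  obtain ⟨d, rfl⟩ : ∃ e, d = e + 1 := ⟨d - 1, by omega⟩
  have hm := gm_exponents n
  obtain ⟨x, hxdef⟩ : ∃ x, x = gm n (d + 1) := ⟨_, rfl⟩
  have hx0 : 0 < x := by rw [hxdef]; exact grid_gm_pos (by omega)
  rw [← hxdef] at hx hCx hWε ⊢
  have hx1 : x ≤ 1 := hx.trans (min_le_right _ _)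
  have hxc : x ≤ c := by
    have := hx.trans (min_le_left _ _)
    linarith
  have hr := hmin.1
  have h2 := h1 n d r W hmin (by omega) (by rw [← hxdef]; exact hxc) (by rw [← hxdef]; exact hCx)
    hW0 (by
      rw [← hxdef]
      refine hWε.trans (mul_le_mul_of_nonneg_right (min_le_left _ _) (by positivity)))
  rw [← hxdef, Ml_const hm hr.2.1 (by omega) (fun l hl => hmin.2.1 l (by omega)),
    Ml_zero hr.1, second_deriv_eq hm hr.2.1 hr.1] at h2
  obtain ⟨χ, hχ⟩ : ∃ χ, χ = 1 - ∑ l ∈ Finset.range (n + 1),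
    (gm n (l + 1) - gm n l) * spR n (gm n) r l := ⟨_, rfl⟩
  rw [← hχ] at h2 ⊢
  have hχ0 : 0 ≤ χ := by
    have h3 : ∑ l ∈ Finset.range (n + 1), (gm n (l + 1) - gm n l) * spR n (gm n) r l ≤
        ∑ l ∈ Finset.range (n + 1), (gm n (l + 1) - gm n l) := by
      refine Finset.sum_le_sum fun l hl => ?_
      have h4 : l ≤ n := Nat.lt_succ_iff.1 (Finset.mem_range.1 hl)
      have h5 := sub_pos.2 (hm.2.2 l h4)
      exact mul_le_of_le_one_right h5.le (spR_lt_one hm hr.2.1 h4).le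
    rw [Finset.sum_range_sub, hm.2.1, hm.1, sub_zero] at h3
    rw [hχ]
    linarith
  have hbχ : 0 ≤ b * χ := by positivity
  obtain ⟨c', hc'⟩ : ∃ c', c' = min (c / 3) 1 := ⟨_, rfl⟩
  rw [← hc']
  have hc'0 : 0 < c' := by rw [hc']; positivity
  have hc'1 : c' ≤ 1 := by rw [hc']; exact min_le_right _ _
  have hc'2 : 3 * c' ≤ c := by
    have : c' ≤ c / 3 := by rw [hc']; exact min_le_left _ _
    linarith
  refine le_of_sq_le_sq ?_ hbχ
  have h3 : b ^ 2 * (c * x ^ 2) ≤ b ^ 2 * (χ ^ 2 - 1 / b ^ 2) :=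
    mul_le_mul_of_nonneg_left h2 (by positivity)
  have h4 : b ^ 2 * (χ ^ 2 - 1 / b ^ 2) = (b * χ) ^ 2 - 1 := by
    field_simp
  rw [h4] at h3
  have h5 : c * x ^ 2 ≤ b ^ 2 * (c * x ^ 2) := by
    have : 1 ≤ b ^ 2 := by nlinarith
    have h6 : 0 ≤ c * x ^ 2 := by positivity
    nlinarith
  have h6 : c' ^ 2 * x ^ 4 ≤ c' * x ^ 2 := by
    have h7 : c' ^ 2 ≤ c' := by nlinarith
    have h8 : x ^ 4 ≤ x ^ 2 := pow_le_pow_of_le_one hx0.le hx1 (by norm_num)
    exact mul_le_mul h7 h8 (by positivity) hc'0.le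
  have h7 : 3 * c' * x ^ 2 ≤ c * x ^ 2 := mul_le_mul_of_nonneg_right hc'2 (by positivity)
  have h8 : (1 + c' * x ^ 2) ^ 2 = 1 + 2 * (c' * x ^ 2) + c' ^ 2 * x ^ 4 := by ring
  rw [h8]
  linarith

end Vale.Agent.P146.H22.Par
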