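import Mathlib
import Vale.Agent.P146.H22.ParD

set_option linter.all false

/-!
# P146, H22: the Parisi side with a field, part E

The functional with a field, as a function of the total strengths and of the overlaps, and its
increment in the variance of the field at a fixed minimiser.
-/

open MeasureTheory ProbabilityTheory Filter Topology Set

namespace Vale.Agent.P146.H22.Par

open Vale.Agent.P157.Par
open Vale.Agent.P146.Gap
open Vale.Agent.P146.Pw2
open Vale.Agent.P367.Cl
open Vale.Agent.P146.Lb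

/-- The functional with a field of variance `V`, as a function of the total strengths. -/
noncomputable def GW (b V : ℝ) (K d : ℕ) (r : ℕ → ℝ) : ℝ :=
  SKW b V K r + V / 2 + (1 - gm K d) * V ^ 2 / (4 * b ^ 2)

/-- The functional with a field of variance `V` at the level `d`, as a function of the overlaps. -/
noncomputable def Vq (b V : ℝ) (K d : ℕ) (q : ℕ → ℝ) : ℝ :=
  b ^ 2 / 4 * (1 + ∑ l ∈ Finset.range (K + 1), (gm K (l + 1) - gm K l) * q l ^ 2) +
    spinPart K (gm K) (fun l => if l < d then 0 else b ^ 2 * q l + V) + V / 2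

theorem sum_ind {K d : ℕ} (hd : d ≤ K) :
    ∑ l ∈ Finset.range (K + 1), (gm K (l + 1) - gm K l) * (if l < d then (0 : ℝ) else 1) =
      1 - gm K d := by
  obtain ⟨h, hh⟩ : ∃ h : ℕ → ℝ, h = fun l => if l ≤ d then gm K d else gm K l := ⟨_, rfl⟩
  have e : ∀ l ∈ Finset.range (K + 1),
      (gm K (l + 1) - gm K l) * (if l < d then (0 : ℝ) else 1) = h (l + 1) - h l := by
    intro l _
    rw [hh]
    simp only []
    rcases Nat.lt_trichotomy l d with h1 | h1 | h1
    · rw [if_pos h1, if_pos (by omega), if_pos (by omega)]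
      ring
    · subst h1
      rw [if_neg (by omega), if_neg (by omega), if_pos le_rfl]
      ring
    · rw [if_neg (by omega), if_neg (by omega), if_neg (by omega)]
      ring
  rw [Finset.sum_congr rfl e, Finset.sum_range_sub, hh]
  simp only []
  rw [if_neg (by omega), if_pos (Nat.zero_le d), (gm_exponents K).2.1]

theorem GW_q {b V : ℝ} (hb : 0 < b) {K d : ℕ} (hd : d ≤ K) {q : ℕ → ℝ} (hq : ∀ l < d, q l = 0) :
    GW b V K d (fun l => if l < d then 0 else b ^ 2 * q l + V) = Vq b V K d q := by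
  unfold GW SKW SKr Vq
  have key : (∑ l ∈ Finset.range (K + 1), (gm K (l + 1) - gm K l) *
        (if l < d then 0 else b ^ 2 * q l + V) ^ 2) / (4 * b ^ 2) -
      V / (2 * b ^ 2) * ∑ l ∈ Finset.range (K + 1), (gm K (l + 1) - gm K l) *
        (if l < d then 0 else b ^ 2 * q l + V) +
      (∑ l ∈ Finset.range (K + 1), (gm K (l + 1) - gm K l) * (if l < d then (0 : ℝ) else 1)) *
        (V ^ 2 / (4 * b ^ 2)) =
      b ^ 2 / 4 * ∑ l ∈ Finset.range (K + 1), (gm K (l + 1) - gm K l) * q l ^ 2 := by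
    rw [Finset.sum_div, Finset.mul_sum, Finset.sum_mul, Finset.mul_sum,
      ← Finset.sum_sub_distrib, ← Finset.sum_add_distrib]
    refine Finset.sum_congr rfl fun l _ => ?_
    by_cases h1 : l < d
    · rw [if_pos h1, if_pos h1, hq l h1]
      simp
    · rw [if_neg h1, if_neg h1]
      field_simp
      ring
  rw [sum_ind hd] at key
  beta_reduce
  have e : (1 - gm K d) * V ^ 2 / (4 * b ^ 2) = (1 - gm K d) * (V ^ 2 / (4 * b ^ 2)) := by ring
  have e2 : b ^ 2 / 4 * (1 + ∑ l ∈ Finset.range (K + 1), (gm K (l + 1) - gm K l) * q l ^ 2) =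
    b ^ 2 / 4 + b ^ 2 / 4 * ∑ l ∈ Finset.range (K + 1), (gm K (l + 1) - gm K l) * q l ^ 2 := by
    ring
  rw [e, e2, ← key]
  ring

/-- The increment of the functional in the variance of the field. -/
theorem GW_gap {b V₁ V₂ : ℝ} (hb : 0 < b) (h0 : 0 ≤ V₁) (h12 : V₁ ≤ V₂) (h2 : V₂ ≤ 1) {K d : ℕ}
    (hd : 1 ≤ d) (hdK : d ≤ K) {r : ℕ → ℝ} (h : IsMinW b V₂ K d r) :
    GW b V₂ K d r - GW b V₁ K d r =
      (V₂ - V₁) / 2 *
        (1 - ∑ l ∈ Finset.range (K + 1), (gm K (l + 1) - gm K l) * spR K (gm K) r l) -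
      (1 - gm K d) * (V₂ - V₁) ^ 2 / (4 * b ^ 2) := by
  have hm := gm_exponents K
  have hst := statW hb (h0.trans h12) h2 hd h
  have hS : ∑ l ∈ Finset.range (K + 1), (gm K (l + 1) - gm K l) * r l =
      V₂ * (1 - gm K d) +
        b ^ 2 * ∑ l ∈ Finset.range (K + 1), (gm K (l + 1) - gm K l) * spR K (gm K) r l := by
    rw [← sum_ind hdK, Finset.mul_sum, Finset.mul_sum, ← Finset.sum_add_distrib]
    refine Finset.sum_congr rfl fun l hl => ?_
    have hlK : l ≤ K := Nat.lt_succ_iff.1 (Finset.mem_range.1 hl)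
    by_cases h1 : l < d
    · rw [if_pos h1, h.2.1 l h1, spR_zero hm h.1.2.1 h.1.1 hlK (h.2.1 l h1)]
      ring
    · rw [if_neg h1]
      conv_lhs => rw [hst l hlK (by omega)]
      ring
  unfold GW SKW
  rw [hS]
  field_simp
  ring

/-- The minimiser is better than every path of overlaps. -/
theorem GW_le_Vq {b V : ℝ} (hb : 0 < b) (h0 : 0 ≤ V) (h1 : V ≤ 1) {K d : ℕ}
    (hd : 1 ≤ d) (hdK : d ≤ K) {r q : ℕ → ℝ} (h : IsMinW b V K d r) (hq : Path K q)
    (hq0 : ∀ l < d, q l = 0) (hq1 : q K ≤ 1) : GW b V K d r ≤ Vq b V K d q := by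
  rw [← GW_q hb hdK hq0]
  have hb2 : 0 < b ^ 2 := by positivity
  have hqn : ∀ l ≤ K, 0 ≤ q l := fun l hl => by
    have := gapn_path_le hq (Nat.zero_le l) hl
    exact hq.1.trans this
  have hP : BPath (√(b ^ 2 + 1)) K (fun l => if l < d then 0 else b ^ 2 * q l + V) := by
    refine ⟨by simp only [if_pos (show 0 < d by omega)],
      ⟨by simp only [if_pos (show 0 < d by omega)]; exact le_rfl, fun l hl => ?_⟩, ?_⟩
    · simp only []
      by_cases h2 : l < d
      · rw [if_pos h2]
        by_cases h3 : l + 1 < d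
        · rw [if_pos h3]
        · rw [if_neg h3]
          have := hqn (l + 1) hl
          positivity
      · rw [if_neg h2, if_neg (by omega)]
        have := mul_le_mul_of_nonneg_left (hq.2 l hl) hb2.le
        linarith
    · simp only []
      rw [if_neg (by omega), sq_B]
      have := mul_le_mul_of_nonneg_left hq1 hb2.le
      linarith
  have h2 := h.2.2 _ hP (fun l hl => by simp only [if_pos hl])
  unfold GW
  linarith

/-- The functional at a path of strengths, in terms of the overlaps. -/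
theorem GW_to_q {b V : ℝ} (hb : 0 < b) {K d : ℕ} (hd : 1 ≤ d) (hdK : d ≤ K) {r : ℕ → ℝ}
    (hr : Path K r) (hr0 : ∀ l < d, r l = 0) (hrV : ∀ l ≤ K, d ≤ l → V ≤ r l) :
    ∃ q : ℕ → ℝ, Path K q ∧ (∀ l < d, q l = 0) ∧ Vq b V K d q = GW b V K d r := by
  have hb2 : 0 < b ^ 2 := by positivity
  refine ⟨fun l => if l < d then 0 else (r l - V) / b ^ 2, ⟨?_, fun l hl => ?_⟩, fun l hl => ?_, ?_⟩
  · simp only [if_pos (show 0 < d by omega)]
    exact le_rfl
  · simp only []
    by_cases h2 : l < d
    · rw [if_pos h2]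
      by_cases h3 : l + 1 < d
      · rw [if_pos h3]
      · rw [if_neg h3]
        have := hrV (l + 1) hl (by omega)
        exact div_nonneg (by linarith) hb2.le
    · rw [if_neg h2, if_neg (by omega)]
      exact div_le_div_of_nonneg_right (by linarith [hr.2 l hl]) hb2.le
  · simp only [if_pos hl]
  · rw [← GW_q hb hdK (fun l hl => by simp only [if_pos hl])]
    have e : (fun l => if l < d then 0 else b ^ 2 * (if l < d then 0 else (r l - V) / b ^ 2) + V) =
        r := by
      funext l
      by_cases h2 : l < d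
      · rw [if_pos h2, hr0 l h2]
      · rw [if_neg h2, if_neg h2]
        field_simp
        ring
    rw [e]

end Vale.Agent.P146.H22.Par
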