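import Vale.Agent.P146.H22.ParE
import Vale.Agent.P146.H178.FlowH
import Vale.Agent.P146.H178.AP
import Vale.Agent.P146.H320.ConcSK
import Vale.Agent.P146.H516.SlopeLow

set_option linter.all false

/-!
# P146, H22: the start of the sharp flow from the Parisi side

`RateF` : the lower bound of the exponential moments with a field, with a rate; `GueF` : the upper
bound at a path.  Both give the response over `(V₁, V₂)` at the exponents `n^(-b₁)`, hence `StartH`,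
without any upper bound of the entropy.
-/

open MeasureTheory ProbabilityTheory Filter Topology Set

namespace Vale.Agent.P146.H22.Par

open Vale.Agent.P157.Par (Path Exponents spinPart spR)
open Vale.Agent.P146.Pw2 (gm)
open Vale.Agent.P146.H122 (sec Asec At)
open Vale.Agent.P146.H178 (StartH)

/-- The lower bound with a field at the level `d`, with a rate. -/
def RateF (b : ℝ) : Prop := ∃ C : ℝ, ∀ K d n : ℕ, 1 ≤ d → d ≤ K → (K + 1) ^ 18 ≤ n →
  ∀ V : ℝ, 0 ≤ V → V ≤ 1 → ∀ Lb : ℝ,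
    (∀ q : ℕ → ℝ, Path K q → q K = 1 → (∀ l < d, q l = 0) → Lb ≤ Vq b V K d q) →
      n * (Real.log 2 + Lb) ≤ H9.Phn n b (gm K d) V + C * (n / √((K : ℝ) + 1))

/-- The upper bound with a field at the level `d`. -/
def GueF (b : ℝ) : Prop := ∀ K d n : ℕ, 1 ≤ n → 1 ≤ d → d < K → ∀ V : ℝ, 0 ≤ V →
  ∀ q : ℕ → ℝ, Path K q → (∀ l < d, q l = 0) →
    H9.Phn n b (gm K d) V ≤ n * (Real.log 2 + Vq b V K d q)

/-- **The increment over `(V₁, V₂)` at a grid point.** -/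
theorem incr_low {b : ℝ} (hb : 1 < b) (hL : RateF b) (hG : GueF b) :
    ∃ c ε C C₂ : ℝ, 0 < c ∧ 0 < ε ∧ ε ≤ 1 ∧ 1 ≤ C ∧ 0 ≤ C₂ ∧
    ∀ K d n : ℕ, 1 ≤ d → d < K → (K + 1) ^ 18 ≤ n → gm K d ≤ c → C ≤ gm K d ^ 8 * (K + 1) →
    ∀ V₁ V₂ : ℝ, 0 ≤ V₁ → V₁ ≤ V₂ → V₂ ≤ ε * gm K d ^ 3 →
      n * ((V₂ - V₁) / (2 * b) * (1 + c * gm K d ^ 2) - (V₂ - V₁) ^ 2 / (4 * b ^ 2)) -
        C₂ * (n / √((K : ℝ) + 1)) ≤
      H9.Phn n b (gm K d) V₂ - H9.Phn n b (gm K d) V₁ := by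
  have hb0 : 0 < b := by linarith
  obtain ⟨c, ε, C, hc, hε, hε1, hC, hpar⟩ := par_main hb
  obtain ⟨C₂, hrate⟩ := hL
  refine ⟨min c 1, ε, C, |C₂|, by positivity, hε, hε1, hC, abs_nonneg _, ?_⟩
  intro K d n hd hdK hn hx hCx V₁ V₂ h0 h12 h2
  have hm := Vale.Agent.P146.Pw2.gm_exponents K
  obtain ⟨x, hxd⟩ : ∃ x, x = gm K d := ⟨_, rfl⟩
  have hx0 : 0 < x := by rw [hxd]; exact Vale.Agent.P146.Pw2.grid_gm_pos hd
  rw [← hxd] at hx hCx h2 ⊢
  have hx1 : x ≤ 1 := hx.trans (min_le_right _ _)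
  have hxc : x ≤ c := hx.trans (min_le_left _ _)
  have h20 : 0 ≤ V₂ := h0.trans h12
  have h21 : V₂ ≤ 1 := by
    have h3 : x ^ 3 ≤ 1 := pow_le_one₀ hx0.le hx1
    have h4 : ε * x ^ 3 ≤ 1 * 1 := mul_le_mul hε1 h3 (by positivity) (by norm_num)
    linarith
  have hn1 : 1 ≤ n := le_trans (Nat.one_le_pow _ _ (by omega)) hn
  have hn0 : (0 : ℝ) < n := by exact_mod_cast hn1
  obtain ⟨r, hr⟩ := exists_minW (b := b) (W := V₂) hdK.le
  have hst := statW hb0 h20 h21 hd hr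
  have hp := hpar K d r V₂ hd hdK.le hr (by rw [← hxd]; exact hxc) (by rw [← hxd]; exact hCx) h20
    (by rw [← hxd]; exact h2)
  rw [← hxd] at hp
  obtain ⟨χ, hχ⟩ : ∃ χ, χ = 1 - ∑ l ∈ Finset.range (K + 1), (gm K (l + 1) - gm K l) *
    spR K (gm K) r l := ⟨_, rfl⟩
  rw [← hχ] at hp
  -- the lower bound at `V₂`
  have hlow := hrate K d n hd hdK.le hn V₂ h20 h21 (GW b V₂ K d r)
    (fun q hq hq1 hq0 => GW_le_Vq hb0 h20 h21 hd hdK.le hr hq hq0 hq1.le)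
  -- the upper bound at `V₁`
  obtain ⟨q, hq, hq0, hqV⟩ := GW_to_q (b := b) (V := V₁) hb0 hd hdK.le hr.1.2.1 hr.2.1
    (fun l hl hdl => by
      rw [hst l hl hdl]
      have := mul_nonneg (sq_nonneg b)
        (Vale.Agent.P157.Par.spR_nonneg hm hr.1.2.1 hl)
      linarith)
  have hup := hG K d n hn1 hd hdK V₁ h0 q hq hq0
  rw [hqV] at hup
  have hgap := GW_gap hb0 h0 h12 h21 hd hdK.le hr
  rw [← hχ] at hgap
  rw [← hxd] at hlow hup hgap
  have hG1 : (V₂ - V₁) / (2 * b) * (1 + min c 1 * x ^ 2) - (V₂ - V₁) ^ 2 / (4 * b ^ 2) ≤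
      GW b V₂ K d r - GW b V₁ K d r := by
    rw [hgap]
    have h3 : (1 - x) * (V₂ - V₁) ^ 2 / (4 * b ^ 2) ≤ (V₂ - V₁) ^ 2 / (4 * b ^ 2) := by
      refine div_le_div_of_nonneg_right ?_ (by positivity)
      have := mul_nonneg hx0.le (sq_nonneg (V₂ - V₁))
      linarith
    have h4 : (V₂ - V₁) / (2 * b) * (1 + min c 1 * x ^ 2) ≤ (V₂ - V₁) / 2 * χ := by
      have h5 : (V₂ - V₁) / 2 * χ = (V₂ - V₁) / (2 * b) * (b * χ) := by
        field_simp
      rw [h5]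
      refine mul_le_mul_of_nonneg_left ?_ (div_nonneg (by linarith) (by linarith))
      have h6 : min c 1 * x ^ 2 ≤ c * x ^ 2 :=
        mul_le_mul_of_nonneg_right (min_le_left _ _) (by positivity)
      linarith
    linarith
  have h7 := mul_le_mul_of_nonneg_left hG1 hn0.le
  have h8 : C₂ * (n / √((K : ℝ) + 1)) ≤ |C₂| * (n / √((K : ℝ) + 1)) :=
    mul_le_mul_of_nonneg_right (le_abs_self _) (by positivity)
  have e1 : (n : ℝ) * (Real.log 2 + GW b V₂ K d r) - n * (Real.log 2 + GW b V₁ K d r) =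
      n * (GW b V₂ K d r - GW b V₁ K d r) := by ring
  linarith

/-- the exponential moments without field are Lipschitz in the exponent -/
theorem phn0_lip {n : ℕ} (hn : 1 ≤ n) (b : ℝ) {x z : ℝ} (hx : 0 < x) (hxz : x ≤ z)
    (hz : z ≤ 1 / 2) :
    H9.Phn n b z 0 - H9.Phn n b x 0 ≤ 2 * (Real.log 2 + b ^ 2 / 4) * n * ((z - x) / x) := by
  have hn0 : (0 : ℝ) < n := by exact_mod_cast hn
  have hz0 : 0 < z := hx.trans_le hxz
  have h1 := (H9.Phn_sub_bd n b 0 hx hxz).2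
  have h2 := H178.KV_le_dbl n b 0 hz0
  have h3 := (H178.Phn_mono n b 0 (show 0 < 2 * z by linarith) (show 2 * z ≤ 1 by linarith)).trans
    (H516.Phn_one_le hn b le_rfl)
  rw [zero_div, add_zero] at h3
  have h4 : 0 ≤ H9.Phn n b z 0 := by
    have h5 := H516.LPhi_low (n := n) (b := b) z hz0.le 0
    rw [Real.sqrt_zero, mul_zero, zero_mul, mul_zero] at h5
    exact div_nonneg h5 hz0.le
  have h6 : H9.KV n b z 0 ≤ 2 * z * (n * (Real.log 2 + b ^ 2 / 4)) :=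
    h2.trans (mul_le_mul_of_nonneg_left (by linarith) (by positivity))
  have e1 : 1 / x - 1 / z = (z - x) / (x * z) := by
    field_simp
  rw [e1] at h1
  have h7 := mul_le_mul_of_nonneg_right h6
    (show 0 ≤ (z - x) / (x * z) from div_nonneg (by linarith) (by positivity))
  have e2 : 2 * z * (n * (Real.log 2 + b ^ 2 / 4)) * ((z - x) / (x * z)) =
      2 * (Real.log 2 + b ^ 2 / 4) * n * ((z - x) / x) := by
    field_simp
  rw [e2] at h7
  exact h1.trans h7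

end Vale.Agent.P146.H22.Par
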