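import Vale.Agent.P146.H22.ParF

set_option linter.all false

/-!
# P146, H22: the start of the sharp flow from the Parisi side, part G

`StartH` from the two bounds `RateF` and `GueF`.
-/

open MeasureTheory ProbabilityTheory Filter Topology Set

namespace Vale.Agent.P146.H22.Par

open Vale.Agent.P157.Par (Path Exponents spinPart spR)
open Vale.Agent.P146.Pw2 (gm)
open Vale.Agent.P146.H122 (sec Asec At)
open Vale.Agent.P146.H178 (StartH)

/-- the grid point below `z` -/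
theorem grid_pt {K : ℕ} {z : ℝ} (hz : 0 < z) (hz1 : z ≤ 1 / 2) (hK : 4 ≤ z * ((K : ℝ) + 1)) :
    ∃ j : ℕ, 1 ≤ j ∧ j < K ∧ gm K j ≤ z ∧ z - gm K j ≤ 1 / ((K : ℝ) + 1) ∧ z / 2 ≤ gm K j := by
  have hK1 : (0 : ℝ) < (K : ℝ) + 1 := by positivity
  have hj : (⌊z * ((K : ℝ) + 1)⌋₊ : ℝ) ≤ z * ((K : ℝ) + 1) := Nat.floor_le (by positivity)
  have hj2 : z * ((K : ℝ) + 1) < (⌊z * ((K : ℝ) + 1)⌋₊ : ℝ) + 1 := Nat.lt_floor_add_one _
  obtain ⟨j, hjd⟩ : ∃ j, j = ⌊z * ((K : ℝ) + 1)⌋₊ := ⟨_, rfl⟩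
  rw [← hjd] at hj hj2
  have e : gm K j = j / ((K : ℝ) + 1) := rfl
  have h1 : 1 ≤ j := by
    have : (0 : ℝ) < j := by linarith
    exact_mod_cast this
  have h2 : j < K := by
    have h3 : (j : ℝ) ≤ 1 / 2 * ((K : ℝ) + 1) := hj.trans (mul_le_mul_of_nonneg_right hz1 hK1.le)
    have h4 : (8 : ℝ) ≤ (K : ℝ) + 1 := by nlinarith
    have h5 : (j : ℝ) < K := by linarith
    exact_mod_cast h5
  refine ⟨j, h1, h2, ?_, ?_, ?_⟩
  · rw [e, div_le_iff₀ hK1]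
    exact hj
  · rw [e, sub_le_iff_le_add, ← add_div, le_div_iff₀ hK1]
    linarith
  · rw [e, le_div_iff₀ hK1]
    linarith

/-- the grid point above `Y` -/
theorem grid_up {K : ℕ} {Y : ℝ} (hY : 0 < Y) (hY1 : 2 * Y ≤ 1 / 2) (hK : 4 ≤ Y * ((K : ℝ) + 1)) :
    ∃ j : ℕ, 1 ≤ j ∧ j < K ∧ Y ≤ gm K j ∧ gm K j ≤ 2 * Y := by
  have hK1 : (0 : ℝ) < (K : ℝ) + 1 := by positivity
  have hj : Y * ((K : ℝ) + 1) ≤ (⌈Y * ((K : ℝ) + 1)⌉₊ : ℝ) := Nat.le_ceil _
  have hj2 : (⌈Y * ((K : ℝ) + 1)⌉₊ : ℝ) < Y * ((K : ℝ) + 1) + 1 := Nat.ceil_lt_add_one (by positivity)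
  obtain ⟨j, hjd⟩ : ∃ j, j = ⌈Y * ((K : ℝ) + 1)⌉₊ := ⟨_, rfl⟩
  rw [← hjd] at hj hj2
  have e : gm K j = j / ((K : ℝ) + 1) := rfl
  have h1 : 1 ≤ j := by
    have : (0 : ℝ) < j := by linarith
    exact_mod_cast this
  have h3 : (j : ℝ) ≤ 2 * Y * ((K : ℝ) + 1) := by linarith
  have h2 : j < K := by
    have h4 : (j : ℝ) ≤ 1 / 2 * ((K : ℝ) + 1) := h3.trans (mul_le_mul_of_nonneg_right hY1 hK1.le)
    have h6 : (16 : ℝ) ≤ (K : ℝ) + 1 := by nlinarith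
    have h5 : (j : ℝ) < K := by linarith
    exact_mod_cast h5
  refine ⟨j, h1, h2, ?_, ?_⟩
  · rw [e, le_div_iff₀ hK1]
    exact hj
  · rw [e, div_le_iff₀ hK1]
    exact h3

/-- **The start, one size.** -/
theorem start_pt {b : ℝ} (hb : 1 < b) {c ε C C₂ : ℝ} (hc : 0 < c) (hε : 0 < ε) (hC₂ : 0 ≤ C₂)
    {K n : ℕ} (hn : 1 ≤ n)
    (hinc : ∀ d : ℕ, 1 ≤ d → d < K → gm K d ≤ c → C ≤ gm K d ^ 8 * (K + 1) →
      ∀ V₁ V₂ : ℝ, 0 ≤ V₁ → V₁ ≤ V₂ → V₂ ≤ ε * gm K d ^ 3 →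
      n * ((V₂ - V₁) / (2 * b) * (1 + c * gm K d ^ 2) - (V₂ - V₁) ^ 2 / (4 * b ^ 2)) -
        C₂ * (n / √((K : ℝ) + 1)) ≤
      H9.Phn n b (gm K d) V₂ - H9.Phn n b (gm K d) V₁)
    {Y D0 D S : ℝ} (hY : 0 < Y) (hD0 : 0 < D0) (hD : 0 < D)
    (hYK : 4 ≤ Y * ((K : ℝ) + 1)) (hYc : 8 * Y ≤ c) (hY1 : 8 * Y ≤ 1 / 2)
    (hYC : 256 * C ≤ Y ^ 8 * ((K : ℝ) + 1)) (hDε : 2 * D ≤ ε) (hDc : 2 * D ≤ c)
    (hSc : 2 * S ≤ c) (hD0ε : 8 * D0 ≤ ε) (hD0c : 4 * D0 ≤ c)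
    (hD5 : 8 * b * C₂ ≤ c * (D * Y ^ 5 * √((K : ℝ) + 1)))
    (hD05 : 16 * b * (C₂ + 4 * (Real.log 2 + b ^ 2 / 4)) ≤ c * (D0 * Y ^ 5 * √((K : ℝ) + 1)))
    (hYs : 1 ≤ Y * √((K : ℝ) + 1)) :
    ∃ y3 : ℝ, Y ≤ y3 ∧ y3 ≤ 4 * Y ∧
      S * y3 ^ 2 ≤ Asec b (fun n => H9.Phn n b) n y3 (D * y3 ^ 3) (2 * (D * y3 ^ 3)) - 1 ∧
      ∀ z ∈ Icc y3 (2 * y3), ∀ W : ℝ, 0 < W → W ≤ D0 * z ^ 3 →
        1 ≤ At b (fun n => H9.Phn n b) n z W := by
  have hb0 : 0 < b := by linarith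
  have hn0 : (0 : ℝ) < n := by exact_mod_cast hn
  have hK1 : (0 : ℝ) < (K : ℝ) + 1 := by positivity
  obtain ⟨k, hk⟩ : ∃ k, k = √((K : ℝ) + 1) := ⟨_, rfl⟩
  have hk0 : 0 < k := by rw [hk]; positivity
  have hk2 : k ^ 2 = (K : ℝ) + 1 := by rw [hk]; exact Real.sq_sqrt hK1.le
  rw [← hk] at hD5 hD05 hYs
  simp only [← hk] at hinc
  obtain ⟨C0, hC0⟩ : ∃ C0, C0 = Real.log 2 + b ^ 2 / 4 := ⟨_, rfl⟩
  have hC00 : 0 ≤ C0 := by
    rw [hC0]
    have := Real.log_nonneg (show (1 : ℝ) ≤ 2 by norm_num)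
    positivity
  rw [← hC0] at hD05
  obtain ⟨j, hj1, hjK, hjY, hj2⟩ := grid_up hY (by linarith) hYK
  obtain ⟨y, hy⟩ : ∃ y, y = gm K j := ⟨_, rfl⟩
  rw [← hy] at hjY hj2
  have hy0 : 0 < y := hY.trans_le hjY
  have hy1 : y ≤ 1 := by linarith
  refine ⟨y, hjY, by linarith, ?_, ?_⟩
  · -- the secant over `(v, 2 v)`
    obtain ⟨v, hv⟩ : ∃ v, v = D * y ^ 3 := ⟨_, rfl⟩
    have hv0 : 0 < v := by rw [hv]; positivity
    rw [← hv]
    have h1 := hinc j hj1 hjK (by rw [← hy]; linarith) (by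
      rw [← hy]
      have h2 : Y ^ 8 ≤ y ^ 8 := pow_le_pow_left₀ hY.le hjY 8
      have h3 : Y ^ 8 * ((K : ℝ) + 1) ≤ y ^ 8 * (K + 1) := mul_le_mul_of_nonneg_right h2 hK1.le
      by_cases hC : 0 ≤ C
      · linarith
      · have h4 : 0 ≤ y ^ 8 * ((K : ℝ) + 1) := by positivity
        linarith) v (2 * v) hv0.le (by linarith) (by
      rw [← hy, hv]
      have := mul_le_mul_of_nonneg_right hDε (show 0 ≤ y ^ 3 by positivity)
      linarith)
    rw [← hy] at h1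
    have e0 : 2 * v - v = v := by ring
    rw [e0] at h1
    unfold Asec sec
    simp only [e0]
    have e1 : 2 * b / n * ((H9.Phn n b y (2 * v) - H9.Phn n b y v) / v) =
        (H9.Phn n b y (2 * v) - H9.Phn n b y v) * (2 * b / (n * v)) := by
      field_simp
    rw [e1]
    have h2 := mul_le_mul_of_nonneg_right h1 (show 0 ≤ 2 * b / (n * v) by positivity)
    have e2 : (n * (v / (2 * b) * (1 + c * y ^ 2) - v ^ 2 / (4 * b ^ 2)) - C₂ * (n / k)) *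
        (2 * b / (n * v)) = 1 + c * y ^ 2 - v / (2 * b) - 2 * b * C₂ / (v * k) := by
      field_simp
      ring
    rw [e2] at h2
    have h3 : v / (2 * b) ≤ c / 4 * y ^ 2 := by
      rw [div_le_iff₀ (by positivity), hv]
      have h4 : D * y ^ 3 ≤ c / 2 * y ^ 2 := by
        have h5 : D * y ≤ c / 2 * 1 := mul_le_mul (by linarith) hy1 hy0.le (by linarith)
        have h6 := mul_le_mul_of_nonneg_right h5 (show 0 ≤ y ^ 2 by positivity)
        linarith [show D * y * y ^ 2 = D * y ^ 3 by ring]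
      have h7 : c / 2 * y ^ 2 * 1 ≤ c / 2 * y ^ 2 * b :=
        mul_le_mul_of_nonneg_left hb.le (by positivity)
      linarith
    have h4 : 2 * b * C₂ / (v * k) ≤ c / 4 * y ^ 2 := by
      rw [div_le_iff₀ (by positivity), hv]
      have h5 : Y ^ 5 ≤ y ^ 5 := pow_le_pow_left₀ hY.le hjY 5
      have h6 : c * (D * Y ^ 5 * k) ≤ c * (D * y ^ 5 * k) := by gcongr
      have e3 : c / 4 * y ^ 2 * (D * y ^ 3 * k) = c * (D * y ^ 5 * k) / 4 := by ring
      rw [e3]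
      linarith
    have h5 : S * y ^ 2 ≤ c / 2 * y ^ 2 := mul_le_mul_of_nonneg_right (by linarith) (by positivity)
    linarith
  · -- the response over `(0, W)`
    intro z hz W hW0 hW
    have hzY : Y ≤ z := hjY.trans hz.1
    have hz0 : 0 < z := hY.trans_le hzY
    have hz4 : z ≤ 4 * Y := by linarith [hz.2]
    have hz1 : z ≤ 1 / 2 := by linarith
    obtain ⟨i, hi1, hiK, hiz, hi2, hi3⟩ := grid_pt hz0 hz1
      (hYK.trans (mul_le_mul_of_nonneg_right hzY hK1.le))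
    obtain ⟨x, hx⟩ : ∃ x, x = gm K i := ⟨_, rfl⟩
    rw [← hx] at hiz hi2 hi3
    have hx0 : 0 < x := by linarith
    have hxY : Y / 2 ≤ x := by linarith
    obtain ⟨V, hV⟩ : ∃ V, V = D0 * z ^ 3 := ⟨_, rfl⟩
    have hV0 : 0 < V := by rw [hV]; positivity
    rw [← hV] at hW
    have hzx : z ^ 3 ≤ 8 * x ^ 3 := by
      have h1 : z ^ 3 ≤ (2 * x) ^ 3 := pow_le_pow_left₀ hz0.le (by linarith) 3
      linarith [show (2 * x) ^ 3 = 8 * x ^ 3 by ring]
    have h1 := hinc i hi1 hiK (by rw [← hx]; linarith) (by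
      rw [← hx]
      have h2 : (Y / 2) ^ 8 ≤ x ^ 8 := pow_le_pow_left₀ (by positivity) hxY 8
      have h3 : (Y / 2) ^ 8 * ((K : ℝ) + 1) ≤ x ^ 8 * (K + 1) := mul_le_mul_of_nonneg_right h2 hK1.le
      have h4 : (Y / 2) ^ 8 * ((K : ℝ) + 1) = Y ^ 8 * ((K : ℝ) + 1) / 256 := by ring
      linarith) 0 V le_rfl hV0.le (by
      rw [← hx, hV]
      have h2 : D0 * z ^ 3 ≤ D0 * (8 * x ^ 3) := mul_le_mul_of_nonneg_left hzx hD0.le
      have h3 := mul_le_mul_of_nonneg_right hD0ε (show 0 ≤ x ^ 3 by positivity)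
      linarith)
    rw [← hx, sub_zero] at h1
    have h2 := H178.Phn_mono n b V hx0 hiz
    have h3 := phn0_lip hn b hx0 hiz hz1
    rw [← hC0] at h3
    have h4 : (z - x) / x ≤ 2 / (Y * k ^ 2) := by
      rw [div_le_div_iff₀ hx0 (by positivity), hk2]
      have h5 : (z - x) * ((K : ℝ) + 1) ≤ 1 := by
        rwa [le_div_iff₀ hK1] at hi2
      have h6 := mul_le_mul_of_nonneg_left h5 hY.le
      have e1 : (z - x) * (Y * ((K : ℝ) + 1)) = Y * ((z - x) * ((K : ℝ) + 1)) := by ring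
      rw [e1]
      linarith
    have h5 : 2 / (Y * k ^ 2) ≤ 2 / k := by
      refine div_le_div_of_nonneg_left (by norm_num) hk0 ?_
      have := mul_le_mul_of_nonneg_right hYs hk0.le
      have e1 : Y * k * k = Y * k ^ 2 := by ring
      linarith
    have h6 : 2 * C0 * n * ((z - x) / x) ≤ 2 * C0 * n * (2 / k) :=
      mul_le_mul_of_nonneg_left (h4.trans h5) (by positivity)
    -- the number
    have hmain : n * V / (2 * b) ≤ H9.Phn n b z V - H9.Phn n b z 0 := by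
      have h7 : V ^ 2 / (4 * b ^ 2) ≤ V / (2 * b) * (c * x ^ 2) / 2 := by
        have h8 : V ≤ b * (c * x ^ 2) := by
          rw [hV]
          have h9 : z ^ 3 ≤ 4 * x ^ 2 := by
            have h10 : z ^ 2 ≤ (2 * x) ^ 2 := pow_le_pow_left₀ hz0.le (by linarith) 2
            have h11 : z ^ 2 * z ≤ (2 * x) ^ 2 * 1 :=
              mul_le_mul h10 (by linarith) hz0.le (by positivity)
            linarith [show z ^ 2 * z = z ^ 3 by ring, show (2 * x) ^ 2 * 1 = 4 * x ^ 2 by ring]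
          have h12 : D0 * z ^ 3 ≤ D0 * (4 * x ^ 2) := mul_le_mul_of_nonneg_left h9 hD0.le
          have h13 : D0 * (4 * x ^ 2) ≤ c * x ^ 2 := by
            have := mul_le_mul_of_nonneg_right hD0c (show 0 ≤ x ^ 2 by positivity)
            linarith
          have h14 : 1 * (c * x ^ 2) ≤ b * (c * x ^ 2) :=
            mul_le_mul_of_nonneg_right hb.le (by positivity)
          linarith
        have e1 : V ^ 2 / (4 * b ^ 2) = V / (4 * b ^ 2) * V := by ring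
        have e2 : V / (2 * b) * (c * x ^ 2) / 2 = V / (4 * b ^ 2) * (b * (c * x ^ 2)) := by
          field_simp
          norm_num
        rw [e1, e2]
        exact mul_le_mul_of_nonneg_left h8 (by positivity)
      have h8 : C₂ * (1 / k) + 2 * C0 * (2 / k) ≤ V / (2 * b) * (c * x ^ 2) / 2 := by
        have e1 : C₂ * (1 / k) + 2 * C0 * (2 / k) = (C₂ + 4 * C0) / k := by ring
        rw [e1, div_le_iff₀ hk0]
        have h9 : D0 * Y ^ 5 ≤ 4 * (V * x ^ 2) := by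
          have h10 : Y ^ 2 ≤ 4 * x ^ 2 := by
            have h11 : Y ^ 2 ≤ (2 * x) ^ 2 := pow_le_pow_left₀ hY.le (by linarith) 2
            linarith [show (2 * x) ^ 2 = 4 * x ^ 2 by ring]
          have h12 : Y ^ 3 ≤ z ^ 3 := pow_le_pow_left₀ hY.le hzY 3
          have h13 : Y ^ 3 * Y ^ 2 ≤ z ^ 3 * (4 * x ^ 2) :=
            mul_le_mul h12 h10 (by positivity) (by positivity)
          have h14 := mul_le_mul_of_nonneg_left h13 hD0.le
          rw [hV]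
          linarith [show D0 * (Y ^ 3 * Y ^ 2) = D0 * Y ^ 5 by ring,
            show D0 * (z ^ 3 * (4 * x ^ 2)) = 4 * (D0 * z ^ 3 * x ^ 2) by ring]
        have h10 : c * (D0 * Y ^ 5 * k) ≤ c * (4 * (V * x ^ 2) * k) := by gcongr
        have h11 : 16 * b * (C₂ + 4 * C0) ≤ c * (4 * (V * x ^ 2) * k) := hD05.trans h10
        have e2 : V / (2 * b) * (c * x ^ 2) / 2 * k = c * (4 * (V * x ^ 2) * k) / (16 * b) := by
          field_simp
          norm_num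
        rw [e2, le_div_iff₀ (by positivity)]
        linarith
      have h9 := mul_le_mul_of_nonneg_left (add_le_add h7 h8) hn0.le
      have e3 : (n : ℝ) * (V ^ 2 / (4 * b ^ 2) + (C₂ * (1 / k) + 2 * C0 * (2 / k))) =
          n * (V ^ 2 / (4 * b ^ 2)) + C₂ * (n / k) + 2 * C0 * n * (2 / k) := by ring
      have e4 : (n : ℝ) * (V / (2 * b) * (1 + c * x ^ 2) - V ^ 2 / (4 * b ^ 2)) =
          n * V / (2 * b) + n * (V / (2 * b) * (c * x ^ 2) / 2 + V / (2 * b) * (c * x ^ 2) / 2) -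
            n * (V ^ 2 / (4 * b ^ 2)) := by ring
      rw [e3] at h9
      rw [e4] at h1
      linarith
    have hcv := H320.Conc.Phn_conc n b hz0 (show z ≤ 1 by linarith)
    have h10 := H178.At_anti (β := b) hb0 (Φ := fun n => H9.Phn n b) (n := n) (x := z) hcv
      (V := W) (v := V) (w := 0) hW0 hW le_rfl hV0
    refine le_trans ?_ h10
    unfold Asec sec
    simp only [sub_zero]
    have e5 : 2 * b / n * ((H9.Phn n b z V - H9.Phn n b z 0) / V) =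
        (H9.Phn n b z V - H9.Phn n b z 0) / (n * V / (2 * b)) := by
      field_simp
    rw [e5, one_le_div (by positivity)]
    exact hmain

end Vale.Agent.P146.H22.Par
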