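import Vale.Agent.P146.H22.ParG

set_option linter.all false

/-!
# P146, H22: the start of the sharp flow from the Parisi side, part H

`StartH` for all small exponents, from the two bounds `RateF` and `GueF`.
-/

open MeasureTheory ProbabilityTheory Filter Topology Set

namespace Vale.Agent.P146.H22.Par

open Vale.Agent.P157.Par (Path Exponents spinPart spR)
open Vale.Agent.P146.Pw2 (gm)
open Vale.Agent.P146.H122 (sec Asec At)
open Vale.Agent.P146.H178 (StartH)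

theorem ev_pow {a : ℝ} (ha : 0 < a) (M : ℝ) : ∀ᶠ n : ℕ in atTop, M ≤ (n : ℝ) ^ a :=
  ((tendsto_rpow_atTop ha).comp tendsto_natCast_atTop_atTop).eventually_ge_atTop M

theorem ev_neg {a : ℝ} (ha : 0 < a) {δ : ℝ} (hδ : 0 < δ) : ∀ᶠ n : ℕ in atTop,
    (n : ℝ) ^ (-a) ≤ δ := by
  filter_upwards [ev_pow ha (1 / δ), eventually_ge_atTop 1] with n h1 h2
  have hn0 : (0 : ℝ) < n := by exact_mod_cast h2
  rw [Real.rpow_neg hn0.le, inv_le_comm₀ (by positivity) hδ, ← one_div]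
  exact h1

/-- **The start from the Parisi side.** -/
theorem startH_of {b : ℝ} (hb : 1 < b) (hL : RateF b) (hG : GueF b) {b₁ d0 s d : ℝ}
    (hb₁ : 0 < b₁) (hd0 : 0 < d0) (hs : 0 < s) (hd : 0 < d) (h1 : 8 * b₁ < 1 / 18)
    (h2 : 5 * b₁ + d < 1 / 36) (h3 : 5 * b₁ + d0 < 1 / 36) :
    StartH b b₁ d0 s d (fun n => H9.Phn n b) := by
  obtain ⟨c, ε, C, C₂, hc, hε, hε1, hC, hC₂, hinc⟩ := incr_low hb hL hG
  have hb0 : 0 < b := by linarith
  unfold StartH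
  filter_upwards [ev_pow (show (0 : ℝ) < 1 / 18 by norm_num) 2, eventually_ge_atTop 1,
    ev_pow (show 0 < 1 / 18 - b₁ by linarith) 8,
    ev_neg hb₁ (show 0 < min c (1 / 2) / 8 by positivity),
    ev_pow (show 0 < 1 / 18 - 8 * b₁ by linarith) (512 * C),
    ev_neg hd (show 0 < min ε c / 2 by positivity),
    ev_neg hs (show 0 < c / 2 by positivity),
    ev_neg hd0 (show 0 < min ε c / 8 by positivity),
    ev_pow (show 0 < 1 / 36 - (5 * b₁ + d) by linarith) (2 * (8 * b * C₂) / c),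
    ev_pow (show 0 < 1 / 36 - (5 * b₁ + d0) by linarith)
      (2 * (16 * b * (C₂ + 4 * (Real.log 2 + b ^ 2 / 4))) / c),
    ev_pow (show 0 < 1 / 36 - b₁ by linarith) 2] with n e1 e2 e3 e4 e5 e6 e7 e8 e9 e10 e11
  have hn0 : (0 : ℝ) < n := by exact_mod_cast e2
  -- the grid
  obtain ⟨R, hR⟩ : ∃ R, R = (n : ℝ) ^ (1 / 18 : ℝ) := ⟨_, rfl⟩
  rw [← hR] at e1
  have hR0 : 0 < R := by linarith
  obtain ⟨k, hk⟩ : ∃ k : ℕ, k = ⌊R⌋₊ := ⟨_, rfl⟩
  have hk1 : (k : ℝ) ≤ R := by rw [hk]; exact Nat.floor_le hR0.le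
  have hk2 : R < k + 1 := by rw [hk]; exact Nat.lt_floor_add_one _
  have hk3 : 1 ≤ k := by
    have : (0 : ℝ) < k := by linarith
    exact_mod_cast this
  obtain ⟨K, rfl⟩ : ∃ K, k = K + 1 := ⟨k - 1, by omega⟩
  push_cast at hk1 hk2
  have hK1 : (0 : ℝ) < (K : ℝ) + 1 := by positivity
  have hKR : R / 2 ≤ (K : ℝ) + 1 := by linarith
  have hKn : (K + 1) ^ 18 ≤ n := by
    have h4 : ((K : ℝ) + 1) ^ 18 ≤ n := by
      calc ((K : ℝ) + 1) ^ 18 ≤ R ^ 18 := pow_le_pow_left₀ hK1.le hk1 18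
        _ = n := by
          rw [hR, ← Real.rpow_natCast, ← Real.rpow_mul hn0.le]
          norm_num
    exact_mod_cast h4
  have hsq : (n : ℝ) ^ (1 / 36 : ℝ) / 2 ≤ √((K : ℝ) + 1) := by
    refine Real.le_sqrt_of_sq_le ?_
    have h4 : ((n : ℝ) ^ (1 / 36 : ℝ) / 2) ^ 2 = R / 4 := by
      rw [div_pow, ← Real.rpow_natCast, ← Real.rpow_mul hn0.le, hR]
      norm_num
    rw [h4]
    linarith
  -- the numbers
  have hY : (0 : ℝ) < (n : ℝ) ^ (-b₁) := by positivity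
  have hYp : ∀ m : ℕ, ((n : ℝ) ^ (-b₁)) ^ m = (n : ℝ) ^ (-(m * b₁)) := fun m => by
    rw [← Real.rpow_natCast, ← Real.rpow_mul hn0.le]
    congr 1
    ring
  have g1 : 4 ≤ (n : ℝ) ^ (-b₁) * ((K : ℝ) + 1) := by
    have h4 : (n : ℝ) ^ (1 / 18 - b₁) = (n : ℝ) ^ (-b₁) * R := by
      rw [hR, ← Real.rpow_add hn0]
      congr 1
      ring
    rw [h4] at e3
    have h5 := mul_le_mul_of_nonneg_left hKR hY.le
    linarith
  have g3 : 256 * C ≤ ((n : ℝ) ^ (-b₁)) ^ 8 * ((K : ℝ) + 1) := by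
    have h4 : (n : ℝ) ^ (1 / 18 - 8 * b₁) = ((n : ℝ) ^ (-b₁)) ^ 8 * R := by
      rw [hR, hYp, ← Real.rpow_add hn0]
      congr 1
      push_cast
      ring
    rw [h4] at e5
    have h5 := mul_le_mul_of_nonneg_left hKR (show 0 ≤ ((n : ℝ) ^ (-b₁)) ^ 8 by positivity)
    linarith
  have g5 : ∀ t M : ℝ, M / c ≤ (n : ℝ) ^ (1 / 36 - (5 * b₁ + t)) →
      M / 2 ≤ c * ((n : ℝ) ^ (-t) * ((n : ℝ) ^ (-b₁)) ^ 5 * √((K : ℝ) + 1)) := by
    intro t M hM
    have h4 : (n : ℝ) ^ (1 / 36 - (5 * b₁ + t)) =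
        (n : ℝ) ^ (-t) * ((n : ℝ) ^ (-b₁)) ^ 5 * (n : ℝ) ^ (1 / 36 : ℝ) := by
      rw [hYp, ← Real.rpow_add hn0, ← Real.rpow_add hn0]
      congr 1
      push_cast
      ring
    rw [h4, div_le_iff₀ hc] at hM
    have h5 := mul_le_mul_of_nonneg_left hsq
      (show 0 ≤ c * ((n : ℝ) ^ (-t) * ((n : ℝ) ^ (-b₁)) ^ 5) by positivity)
    linarith
  have g9 := g5 d _ e9
  have g10 := g5 d0 _ e10
  have g11 : 1 ≤ (n : ℝ) ^ (-b₁) * √((K : ℝ) + 1) := by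
    have h4 : (n : ℝ) ^ (1 / 36 - b₁) = (n : ℝ) ^ (-b₁) * (n : ℝ) ^ (1 / 36 : ℝ) := by
      rw [← Real.rpow_add hn0]
      congr 1
      ring
    rw [h4] at e11
    have h5 := mul_le_mul_of_nonneg_left hsq hY.le
    linarith
  have m1 := min_le_left c (1 / 2 : ℝ)
  have m2 := min_le_right c (1 / 2 : ℝ)
  have m3 := min_le_left ε c
  have m4 := min_le_right ε c
  obtain ⟨y3, k1, k2, k3, k4⟩ := start_pt hb hc hε hC₂ (C := C) (C₂ := C₂) (K := K) (n := n) e2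
    (fun d hd1 hdK => hinc K d n hd1 hdK hKn) (Y := (n : ℝ) ^ (-b₁)) (D0 := (n : ℝ) ^ (-d0))
    (D := (n : ℝ) ^ (-d)) (S := (n : ℝ) ^ (-s)) hY (by positivity) (by positivity) g1
    (by linarith) (by linarith) g3 (by linarith) (by linarith) (by linarith) (by linarith)
    (by linarith) (by linarith) (by linarith) g11
  refine ⟨y3, 1, k1, k2, le_rfl, by norm_num, ?_, k4⟩
  rw [one_mul]
  exact k3

/-- All the starts which the two stages need. -/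
theorem startH_all {b : ℝ} (hb : 1 < b) (hL : RateF b) (hG : GueF b) {b₁ : ℝ} (hb₁ : 0 < b₁)
    (h1 : b₁ < 1 / 180) : ∃ q0 : ℝ, 0 < q0 ∧ ∀ q, 0 < q → q ≤ q0 →
      StartH b b₁ (23 * q) (10 * q) (24 * q) (fun n => H9.Phn n b) := by
  refine ⟨(1 / 36 - 5 * b₁) / 48, by linarith, fun q hq hq0 => ?_⟩
  exact startH_of hb hL hG hb₁ (by linarith) (by linarith) (by linarith) (by linarith)
    (by linarith) (by linarith)

end Vale.Agent.P146.H22.Par
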