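import Vale.Agent.P146.H22.StartP
import Vale.Agent.P146.H122.QF

set_option linter.all false

/-!
# P146: the start of the sharp flow, eventually in the size and in the unit of the exponents

`start_n`: the start at one size, from the inequalities between the powers; `start_ev`: the start
with the exponents `23 q`, `10 q`, `24 q`, for all pairs `(n, q)` of the filter `QF`; `start_ev1`: the
same with the response `c y²` in place of `n^(-10q) y²`, and with the fields up to `ε y³`.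
-/

open MeasureTheory ProbabilityTheory Filter Topology Set

namespace Vale.Agent.P146.H22.Par

open Vale.Agent.P146.Pw2 (gm)
open Vale.Agent.P146.H122 (sec Asec At)

/-- **The start at one size.** -/
theorem start_n {b : ℝ} (hb : 1 < b) {c ε C C₂ : ℝ} (hc : 0 < c) (hε : 0 < ε) (hC₂ : 0 ≤ C₂)
    {n : ℕ}
    (hinc : ∀ (K : ℕ) (d : ℕ), 1 ≤ d → d < K → (K + 1) ^ 18 ≤ n → gm K d ≤ c →
      C ≤ gm K d ^ 8 * (K + 1) →
      ∀ V₁ V₂ : ℝ, 0 ≤ V₁ → V₁ ≤ V₂ → V₂ ≤ ε * gm K d ^ 3 →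
      n * ((V₂ - V₁) / (2 * b) * (1 + c * gm K d ^ 2) - (V₂ - V₁) ^ 2 / (4 * b ^ 2)) -
        C₂ * (n / √((K : ℝ) + 1)) ≤
      H9.Phn n b (gm K d) V₂ - H9.Phn n b (gm K d) V₁)
    {b₁ : ℝ} (e1 : 2 ≤ (n : ℝ) ^ (1 / 18 : ℝ)) (e2 : 1 ≤ n)
    (e3 : 8 ≤ (n : ℝ) ^ (1 / 18 - b₁)) (e4 : (n : ℝ) ^ (-b₁) ≤ min c (1 / 2) / 8)
    (e5 : 512 * C ≤ (n : ℝ) ^ (1 / 18 - 8 * b₁)) {D0 D S : ℝ} (hD0 : 0 < D0) (hD : 0 < D)
    (e6 : D ≤ min ε c / 2) (e7 : S ≤ c / 2) (e8 : D0 ≤ min ε c / 8)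
    (e9 : 2 * (8 * b * C₂) / c ≤ D * (n : ℝ) ^ (1 / 36 - 5 * b₁))
    (e10 : 2 * (16 * b * (C₂ + 4 * (Real.log 2 + b ^ 2 / 4))) / c ≤
      D0 * (n : ℝ) ^ (1 / 36 - 5 * b₁))
    (e11 : 2 ≤ (n : ℝ) ^ (1 / 36 - b₁)) :
    ∃ y3 : ℝ, (n : ℝ) ^ (-b₁) ≤ y3 ∧ y3 ≤ 4 * (n : ℝ) ^ (-b₁) ∧
      S * y3 ^ 2 ≤ Asec b (fun n => H9.Phn n b) n y3 (D * y3 ^ 3) (2 * (D * y3 ^ 3)) - 1 ∧
      ∀ z ∈ Icc y3 (2 * y3), ∀ W : ℝ, 0 < W → W ≤ D0 * z ^ 3 →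
        1 ≤ At b (fun n => H9.Phn n b) n z W := by
  have hn0 : (0 : ℝ) < n := by exact_mod_cast e2
  -- the grid
  obtain ⟨R, hR⟩ : ∃ R, R = (n : ℝ) ^ (1 / 18 : ℝ) := ⟨_, rfl⟩
  rw [← hR] at e1
  have hR0 : 0 < R := by linarith
  obtain ⟨k, hk⟩ : ∃ k : ℕ, k = ⌊R⌋₊ := ⟨_, rfl⟩
  have hk1 : (k : ℝ) ≤ R := by rw [hk]; exact Nat.floor_le hR0.le
  have hk2 : R < k + 1 := by rw [hk]; exact Nat.lt_floor_add_one _
  have hk3 : 1 ≤ k := by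
    have : (0 : ℝ) < k := by linarith
    exact_mod_cast this
  obtain ⟨K, rfl⟩ : ∃ K, k = K + 1 := ⟨k - 1, by omega⟩
  push_cast at hk1 hk2
  have hK1 : (0 : ℝ) < (K : ℝ) + 1 := by positivity
  have hKR : R / 2 ≤ (K : ℝ) + 1 := by linarith
  have hKn : (K + 1) ^ 18 ≤ n := by
    have h4 : ((K : ℝ) + 1) ^ 18 ≤ n := by
      calc ((K : ℝ) + 1) ^ 18 ≤ R ^ 18 := pow_le_pow_left₀ hK1.le hk1 18
        _ = n := by
          rw [hR, ← Real.rpow_natCast, ← Real.rpow_mul hn0.le]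
          norm_num
    exact_mod_cast h4
  have hsq : (n : ℝ) ^ (1 / 36 : ℝ) / 2 ≤ √((K : ℝ) + 1) := by
    refine Real.le_sqrt_of_sq_le ?_
    have h4 : ((n : ℝ) ^ (1 / 36 : ℝ) / 2) ^ 2 = R / 4 := by
      rw [div_pow, ← Real.rpow_natCast, ← Real.rpow_mul hn0.le, hR]
      norm_num
    rw [h4]
    linarith
  -- the numbers
  have hY : (0 : ℝ) < (n : ℝ) ^ (-b₁) := by positivity
  have hYp : ∀ m : ℕ, ((n : ℝ) ^ (-b₁)) ^ m = (n : ℝ) ^ (-(m * b₁)) := fun m => by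
    rw [← Real.rpow_natCast, ← Real.rpow_mul hn0.le]
    congr 1
    ring
  have g1 : 4 ≤ (n : ℝ) ^ (-b₁) * ((K : ℝ) + 1) := by
    have h4 : (n : ℝ) ^ (1 / 18 - b₁) = (n : ℝ) ^ (-b₁) * R := by
      rw [hR, ← Real.rpow_add hn0]
      congr 1
      ring
    rw [h4] at e3
    have h5 := mul_le_mul_of_nonneg_left hKR hY.le
    linarith
  have g3 : 256 * C ≤ ((n : ℝ) ^ (-b₁)) ^ 8 * ((K : ℝ) + 1) := by
    have h4 : (n : ℝ) ^ (1 / 18 - 8 * b₁) = ((n : ℝ) ^ (-b₁)) ^ 8 * R := by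
      rw [hR, hYp, ← Real.rpow_add hn0]
      congr 1
      push_cast
      ring
    rw [h4] at e5
    have h5 := mul_le_mul_of_nonneg_left hKR (show 0 ≤ ((n : ℝ) ^ (-b₁)) ^ 8 by positivity)
    linarith
  have g5 : ∀ t M : ℝ, 0 < t → M / c ≤ t * (n : ℝ) ^ (1 / 36 - 5 * b₁) →
      M / 2 ≤ c * (t * ((n : ℝ) ^ (-b₁)) ^ 5 * √((K : ℝ) + 1)) := by
    intro t M ht hM
    have h4 : (n : ℝ) ^ (1 / 36 - 5 * b₁) = ((n : ℝ) ^ (-b₁)) ^ 5 * (n : ℝ) ^ (1 / 36 : ℝ) := by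
      rw [hYp, ← Real.rpow_add hn0]
      congr 1
      push_cast
      ring
    rw [h4, div_le_iff₀ hc] at hM
    have h5 := mul_le_mul_of_nonneg_left hsq
      (show 0 ≤ c * (t * ((n : ℝ) ^ (-b₁)) ^ 5) by positivity)
    linarith
  have g9 := g5 D _ hD e9
  have g10 := g5 D0 _ hD0 e10
  have g11 : 1 ≤ (n : ℝ) ^ (-b₁) * √((K : ℝ) + 1) := by
    have h4 : (n : ℝ) ^ (1 / 36 - b₁) = (n : ℝ) ^ (-b₁) * (n : ℝ) ^ (1 / 36 : ℝ) := by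
      rw [← Real.rpow_add hn0]
      congr 1
      ring
    rw [h4] at e11
    have h5 := mul_le_mul_of_nonneg_left hsq hY.le
    linarith
  have m1 := min_le_left c (1 / 2 : ℝ)
  have m2 := min_le_right c (1 / 2 : ℝ)
  have m3 := min_le_left ε c
  have m4 := min_le_right ε c
  exact start_pt hb hc hε hC₂ (C := C) (C₂ := C₂) (K := K) (n := n) e2
    (fun d hd1 hdK => hinc K d hd1 hdK hKn) (Y := (n : ℝ) ^ (-b₁)) (D0 := D0)
    (D := D) (S := S) hY hD0 hD g1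
    (by linarith) (by linarith) g3 (by linarith) (by linarith) (by linarith) (by linarith)
    (by linarith) (by linarith) (by linarith) g11

open Vale.Agent.P146.S3

/-- **The start, eventually in the size and the unit, with constants**: the response over `(v, 2 v)`,
`v = D y³`, is at least `1 + c y²`, for EVERY `D` between a small power of `n` and a constant. -/
theorem start_c {b : ℝ} (hb : 1 < b) {b₁ : ℝ} (hb₁ : 0 < b₁) (h1 : b₁ < 1 / 180) :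
    ∃ c : ℝ, 0 < c ∧ EV fun n q => ∀ D0 D : ℝ, (n : ℝ) ^ (-(24 * q)) ≤ D0 → D0 ≤ c →
      (n : ℝ) ^ (-(24 * q)) ≤ D → D ≤ c →
      ∃ y3 : ℝ, (n : ℝ) ^ (-b₁) ≤ y3 ∧ y3 ≤ 4 * (n : ℝ) ^ (-b₁) ∧
        c * y3 ^ 2 ≤ Asec b (fun n => H9.Phn n b) n y3 (D * y3 ^ 3) (2 * (D * y3 ^ 3)) - 1 ∧
        ∀ z ∈ Icc y3 (2 * y3), ∀ W : ℝ, 0 < W → W ≤ D0 * z ^ 3 →
          1 ≤ At b (fun n => H9.Phn n b) n z W := by
  obtain ⟨c, ε, C, C₂, hc, hε, hε1, hC, hC₂, hinc⟩ := incr_low hb (rateF (by linarith)) gueF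
  have hb0 : 0 < b := by linarith
  refine ⟨min ε c / 8, by positivity, ?_⟩
  have hg : 0 < (1 / 36 - 5 * b₁) / 2 := by linarith
  filter_upwards [ev_atTop (ev_pow (show (0 : ℝ) < 1 / 18 by norm_num) 2), ev_ge 1,
    ev_atTop (ev_pow (show 0 < 1 / 18 - b₁ by linarith) 8),
    ev_atTop (ev_neg hb₁ (show 0 < min c (1 / 2) / 8 by positivity)),
    ev_atTop (ev_pow (show 0 < 1 / 18 - 8 * b₁ by linarith) (512 * C)),
    ev_atTop (ev_pow hg (2 * (8 * b * C₂) / c)),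
    ev_atTop (ev_pow hg (2 * (16 * b * (C₂ + 4 * (Real.log 2 + b ^ 2 / 4))) / c)),
    ev_atTop (ev_pow (show 0 < 1 / 36 - b₁ by linarith) 2), ev_qpow hg 24] with p e1 e2 e3 e4 e5
      e9 e10 e11 e12 D0 D hD0 hD0c hD hDc
  obtain ⟨n, q⟩ := p
  simp only at e1 e2 e3 e4 e5 e9 e10 e11 e12 hD0 hD0c hD hDc ⊢
  have hn0 : (0 : ℝ) < n := by exact_mod_cast e2
  have m1 := min_le_left ε c
  have m2 := min_le_right ε c
  have m3 : 0 < min ε c := by positivity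
  have hp : 0 < (n : ℝ) ^ (-(24 * q)) := by positivity
  have hk : ∀ t M : ℝ, (n : ℝ) ^ (-(24 * q)) ≤ t → M ≤ (n : ℝ) ^ ((1 / 36 - 5 * b₁) / 2) →
      M ≤ t * (n : ℝ) ^ (1 / 36 - 5 * b₁) := by
    intro t M ht hM
    have h4 : (n : ℝ) ^ (1 / 36 - 5 * b₁) =
        (n : ℝ) ^ ((1 / 36 - 5 * b₁) / 2) * (n : ℝ) ^ ((1 / 36 - 5 * b₁) / 2) := by
      rw [← Real.rpow_add hn0]
      congr 1
      ring
    have h5 : 1 ≤ (n : ℝ) ^ (-(24 * q)) * (n : ℝ) ^ ((1 / 36 - 5 * b₁) / 2) := by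
      have h6 := mul_le_mul_of_nonneg_left e12 hp.le
      rw [← Real.rpow_add hn0] at h6
      have h7 : (-(24 * q) + 24 * q : ℝ) = 0 := by ring
      rw [h7, Real.rpow_zero] at h6
      exact h6
    have h8 : 1 ≤ t * (n : ℝ) ^ ((1 / 36 - 5 * b₁) / 2) :=
      h5.trans (mul_le_mul_of_nonneg_right ht (by positivity))
    rw [h4]
    have h9 := mul_le_mul_of_nonneg_right h8
      (show 0 ≤ (n : ℝ) ^ ((1 / 36 - 5 * b₁) / 2) by positivity)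
    linarith
  exact start_n hb hc hε hC₂ (C := C) (C₂ := C₂) (n := n)
    (fun K d hd1 hdK hKn => hinc K d n hd1 hdK hKn) e1 e2 e3 e4 e5 (D0 := D0) (D := D)
    (S := min ε c / 8) (hp.trans_le hD0) (hp.trans_le hD) (by linarith) (by linarith) (by linarith)
    (hk D _ hD e9) (hk D0 _ hD0 e10) e11

end Vale.Agent.P146.H22.Par

namespace Vale.Agent.P146.S3

open Vale.Agent.P146.H122 (sec Asec At)

/-- **The start of the sharp flow** in the filter of the pairs `(n, q)`. -/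
theorem start_ev {b : ℝ} (hb : 1 < b) {b₁ : ℝ} (hb₁ : 0 < b₁) (h1 : b₁ < 1 / 180) :
    EV fun n q => ∃ y3 κ : ℝ,
      (n : ℝ) ^ (-b₁) ≤ y3 ∧ y3 ≤ 4 * (n : ℝ) ^ (-b₁) ∧ 1 ≤ κ ∧ κ ≤ 64 ∧
      (n : ℝ) ^ (-(10 * q)) * y3 ^ 2 ≤ Asec b (fun n => H9.Phn n b) n y3
        (κ * ((n : ℝ) ^ (-(24 * q)) * y3 ^ 3)) (2 * (κ * ((n : ℝ) ^ (-(24 * q)) * y3 ^ 3))) - 1 ∧
      ∀ z ∈ Icc y3 (2 * y3), ∀ W : ℝ, 0 < W → W ≤ (n : ℝ) ^ (-(23 * q)) * z ^ 3 →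
        1 ≤ At b (fun n => H9.Phn n b) n z W := by
  obtain ⟨c, hc, h⟩ := H22.Par.start_c hb hb₁ h1
  filter_upwards [h, ev_rpow (show (0 : ℝ) < 10 by norm_num) (1 / c),
    ev_rpow (show (0 : ℝ) < 23 by norm_num) (1 / c), ev_rpow (show (0 : ℝ) < 24 by norm_num) (1 / c),
    ev_three, ev_q0] with p g e1 e2 e3 e4 e5
  obtain ⟨n, q⟩ := p
  simp only at g e1 e2 e3 e4 e5 ⊢
  have hn0 : (0 : ℝ) < n := by linarith [e4.1]
  have hk : ∀ t : ℝ, 1 / c ≤ (n : ℝ) ^ t → (n : ℝ) ^ (-t) ≤ c := by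
    intro t ht
    rw [Real.rpow_neg hn0.le, inv_le_comm₀ (by positivity) hc, ← one_div]
    exact ht
  obtain ⟨y3, k1, k2, k3, k4⟩ := g ((n : ℝ) ^ (-(23 * q))) ((n : ℝ) ^ (-(24 * q)))
    (Real.rpow_le_rpow_of_exponent_le (by linarith [e4.1]) (by linarith)) (hk _ e2) le_rfl (hk _ e3)
  refine ⟨y3, 1, k1, k2, le_rfl, by norm_num, ?_, k4⟩
  rw [one_mul]
  exact (mul_le_mul_of_nonneg_right (hk _ e1) (by positivity)).trans k3

end Vale.Agent.P146.S3
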