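import Vale.Agent.P146.H22.S3Start
import Vale.Agent.P146.H122.S3Defs

set_option linter.all false

/-!
# P146: `StartS`, unconditionally
-/

open MeasureTheory ProbabilityTheory Filter Topology Set

namespace Vale.Agent.P146.S3

/-- **`StartS` holds.** -/
theorem startS {b : ℝ} (hb : 1 < b) {b₁ : ℝ} (hb₁ : 0 < b₁) (h1 : b₁ < 1 / 180) :
    StartS b b₁ (fun n => H9.Phn n b) :=
  start_ev hb hb₁ h1

end Vale.Agent.P146.S3
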